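import Vale.Agent.P281Z.Cv.Defs
import Vale.Agent.P281Z.Nt.Hyp

/-!
# P281Z, the cover of the fibre power: weights comparable with monomials
-/

open scoped Manifold ContDiff Topology
open Set Filter
open Vale.Agent.P272.K
open Vale.Agent.P277Z (Hol)
open Vale.Agent.P277Z.Slc (LEq Snc)
open Vale.Agent.P277Z.Hir (Cpb)

set_option linter.unusedSectionVars false

noncomputable section

namespace Vale.Agent.P281Z.Cv

namespace Cb

section cpb

variable {T : Type} {l : Filter T} {f g h a b : T → ℝ}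

theorem symm (h1 : Cpb l f g) : Cpb l g f :=
  let ⟨C, c, k⟩ := h1
  ⟨C, c, k.mono fun _ => And.symm⟩

theorem trans (h1 : Cpb l f g) (h2 : Cpb l g h) : Cpb l f h := by
  obtain ⟨C, c, k⟩ := h1
  obtain ⟨C', c', k'⟩ := h2
  refine ⟨C * C', mul_pos c c', ?_⟩
  filter_upwards [k, k'] with v m m'
  exact ⟨by nlinarith [mul_le_mul_of_nonneg_left m'.1 c.le],
    by nlinarith [mul_le_mul_of_nonneg_left m.2 c'.le]⟩

theorem congr (h1 : Cpb l f g) (e : ∀ᶠ v in l, f v = a v) (e' : ∀ᶠ v in l, g v = b v) : Cpb l a b :=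
  let ⟨C, c, k⟩ := h1
  ⟨C, c, by filter_upwards [k, e, e'] with v m m1 m2 using m1 ▸ m2 ▸ m⟩

theorem mul (h1 : Cpb l f a) (h2 : Cpb l g b) (ha : ∀ v, 0 ≤ a v) (hb : ∀ v, 0 ≤ b v) :
    Cpb l (fun v => f v * g v) fun v => a v * b v := by
  obtain ⟨C, c, k⟩ := h1
  obtain ⟨C', c', k'⟩ := h2
  refine ⟨C * C', mul_pos c c', ?_⟩
  filter_upwards [k, k'] with v m m'
  have p3 : 0 ≤ f v := nonneg_of_mul_nonneg_right ((ha v).trans m.2) c
  have p4 : 0 ≤ g v := nonneg_of_mul_nonneg_right ((hb v).trans m'.2) c'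
  rw [mul_mul_mul_comm, mul_mul_mul_comm C C' (f v)]
  exact ⟨mul_le_mul m.1 m'.1 p4 (mul_nonneg c.le (ha v)),
    mul_le_mul m.2 m'.2 (hb v) (mul_nonneg c.le p3)⟩

theorem unit {u : T → ℝ} {c : ℝ} (hu : Tendsto u l (𝓝 c)) (hc : 0 < c) (ha : ∀ v, 0 ≤ a v) :
    Cpb l (fun v => u v * a v) a := by
  refine ⟨c + 1 + 2 / c, by positivity, ?_⟩
  filter_upwards [hu.eventually (Ioo_mem_nhds (half_lt_self hc) (lt_add_one c))] with v m
  have h1 : 0 < u v := (half_pos hc).trans m.1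
  have h2 : 0 < 2 / c := by positivity
  have h3 : 1 ≤ 2 / c * u v := by
    rw [div_mul_eq_mul_div, le_div_iff₀ hc]
    linarith [m.1]
  refine ⟨mul_le_mul_of_nonneg_right (by linarith [m.2]) (ha v), ?_⟩
  rw [← mul_assoc]
  exact le_mul_of_one_le_left (ha v) (by nlinarith)

theorem comp {S : Type} {l' : Filter S} {p : S → T} (h1 : Cpb l f g) (hp : Tendsto p l' l) :
    Cpb l' (fun v => f (p v)) fun v => g (p v) :=
  let ⟨C, c, k⟩ := h1
  ⟨C, c, hp.eventually k⟩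

variable [TopologicalSpace T] {z : T}

theorem near (h1 : Cpb (𝓝 z) f g) : ∀ᶠ y in 𝓝 z, Cpb (𝓝 y) f g :=
  let ⟨C, c, k⟩ := h1
  k.eventually_nhds.mono fun _ m => ⟨C, c, m⟩

theorem units {ι : Type} [Fintype ι] {u : ι → T → ℝ} (hu : ∀ i, ContinuousAt (u i) z)
    (h0 : ∀ i, 0 < u i z) (ha : ∀ v, 0 ≤ a v) (e : ∀ᶠ y in 𝓝 z, f y = (∏ i, u i y) * a y) :
    Cpb (𝓝 z) f a :=
  congr (unit (tendsto_finsetProd _ fun i _ => hu i) (Finset.prod_pos fun i _ => h0 i) ha)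
    (e.mono fun _ => .symm) (.of_forall fun _ => rfl)

theorem le_exp {r s : ℕ} (hf : ContinuousAt f z) (h0 : f z = 0) (h1 : ∃ᶠ y in 𝓝 z, 0 < f y)
    (h2 : Cpb (𝓝 z) (fun y => f y ^ r) fun y => f y ^ s) : s ≤ r := by
  by_contra! hr
  obtain ⟨k, rfl⟩ := Nat.exists_eq_add_of_lt hr
  obtain ⟨C, -, hC⟩ := h2
  have h3 : ∀ᶠ y in 𝓝 z, C * f y ^ (k + 1) < 1 :=
    (continuousAt_const.mul (hf.pow _)).eventually_lt continuousAt_const (by simp [h0])
  obtain ⟨y, m1, m2, m3⟩ := (h1.and_eventually (hC.and h3)).exists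
  have m4 : f y ^ r ≤ C * f y ^ (r + k + 1) := m2.1
  rw [add_assoc, pow_add, mul_left_comm] at m4
  exact (m4.trans_lt (mul_lt_of_lt_one_right (pow_pos m1 r) m3)).false

end cpb

variable {n : ℕ} {X : Type} [TopologicalSpace X] [ChartedSpace (Cm n) X]
  [IsManifold 𝓘(ℂ, Cm n) ω X] {κ : Type} [Fintype κ] {G : κ → Set X} {x : X} {ζ ζ' : κ → X → ℂ}
  {r r' : κ → ℕ}

theorem nn (y : X) : 0 ≤ ∏ l, ‖ζ l y‖ ^ r l := by positivity

/-- other local equations; only the components through the point matter -/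
theorem chg (hζ : ∀ l, LEq n (G l) x (ζ l)) (hζ' : ∀ l, LEq n (G l) x (ζ' l))
    (e : ∀ l, x ∈ G l → r l = r' l) :
    Cpb (𝓝 x) (fun y => ∏ l, ‖ζ l y‖ ^ r l) fun y => ∏ l, ‖ζ' l y‖ ^ r' l := by
  have h1 : ∀ l, ∃ u : X → ℝ, ContinuousAt u x ∧ 0 < u x ∧
      ∀ᶠ y in 𝓝 x, ‖ζ l y‖ ^ r l = u y * ‖ζ' l y‖ ^ r' l := fun l => by
    by_cases hl : x ∈ G l
    · obtain ⟨w, k1, k2, k3⟩ := leq_unit (hζ' l) (hζ l)
      exact ⟨fun y => ‖w y‖ ^ r l, k1.cont.norm.pow _, pow_pos (norm_pos_iff.2 k2) _,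
        k3.mono fun y m => by rw [m, norm_mul, mul_pow, e l hl]⟩
    · have k1 := mt (hζ l).mem.1 hl
      have k2 := mt (hζ' l).mem.1 hl
      refine ⟨fun y => ‖ζ l y‖ ^ r l / ‖ζ' l y‖ ^ r' l, ((hζ l).hol.cont.norm.pow _).div
        ((hζ' l).hol.cont.norm.pow _) (pow_ne_zero _ (norm_ne_zero_iff.2 k2)),
        div_pos (pow_pos (norm_pos_iff.2 k1) _) (pow_pos (norm_pos_iff.2 k2) _), ?_⟩
      filter_upwards [(hζ' l).hol.ne_near k2] with y m
      rw [div_mul_cancel₀ _ (pow_ne_zero _ (norm_ne_zero_iff.2 m))]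
  choose u k1 k2 k3 using h1
  refine units k1 k2 nn ?_
  filter_upwards [eventually_all.2 k3] with y m
  rw [← Finset.prod_mul_distrib]
  exact Finset.prod_congr rfl fun l _ => m l

/-- the exponents along the components through the point are unique -/
theorem uniq (hG : Snc n G) (hζ : ∀ l, LEq n (G l) x (ζ l))
    (h : Cpb (𝓝 x) (fun y => ∏ l, ‖ζ l y‖ ^ r l) fun y => ∏ l, ‖ζ l y‖ ^ r' l) {l : κ}
    (hl : x ∈ G l) : r l = r' l := by
  classical
  obtain ⟨z, ⟨m1, m2⟩, m3, m4⟩ := ((Nt.Hp.genp hG hl).and_eventually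
    ((eventually_all.2 fun l => (hζ l).near).and (near h))).exists
  have h1 : ∀ s : κ → ℕ, Cpb (𝓝 z) (fun y => ∏ l, ‖ζ l y‖ ^ s l) fun y => ‖ζ l y‖ ^ s l :=
    fun s => congr (chg (r' := fun k => if k = l then s l else 0) m3 m3 fun k hk => by
      obtain rfl : k = l := by_contra fun e => m2 k e hk
      simp) (.of_forall fun _ => rfl) (.of_forall fun y => by simp [pow_ite])
  have h2 := trans (symm (h1 r)) (trans m4 (h1 r'))
  have h3 := (m3 l).hol.cont.norm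
  have h4 := norm_eq_zero.2 ((m3 l).mem.2 m1)
  have h5 : ∃ᶠ y in 𝓝 z, 0 < ‖ζ l y‖ :=
    (((Hyp.of_snc hG).freq z).and_eventually (off_iff m3)).mono fun y m =>
      norm_pos_iff.2 (m.2.1 m.1 l)
  exact le_antisymm (le_exp h3 h4 h5 (symm h2)) (le_exp h3 h4 h5 h2)

end Cb

open Cb in
theorem cpb : CPB := fun n X κ _ G hG => by
  classical
  refine ⟨fun n' X' κ' _ G' p ρ hG' hp h1 h2 x ζ hζ => ?_, fun ρ ρ' h1 h2 x ζ hζ => ?_,
    fun ρ hc h => ?_⟩
  · obtain ⟨ξ, hξ, -⟩ := hG' (p x)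
    obtain ⟨r, hr⟩ := h2 _ ξ hξ
    choose a c k1 k2 k3 using fun l => Nt.Hp.mon hG hζ (hp.hol (hξ l).hol)
      ((hp.cont.continuousAt.eventually (off_iff hξ)).mono fun y m hy => m.1 (h1 y hy) l)
    refine ⟨fun l => ∑ j, a j l * r j, trans (comp hr hp.cont.continuousAt)
      (units (u := fun j y => ‖c j y‖ ^ r j) (fun j => (k1 j).cont.norm.pow _)
        (fun j => pow_pos (norm_pos_iff.2 (k2 j)) _) nn ?_)⟩
    filter_upwards [eventually_all.2 k3] with y m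
    simp only [m, norm_mul, norm_prod, norm_pow, mul_pow, Finset.prod_mul_distrib,
      ← Finset.prod_pow, ← pow_mul, ← Finset.prod_pow_eq_pow_sum]
    rw [Finset.prod_comm]
  · obtain ⟨r, hr⟩ := h1 x ζ hζ
    obtain ⟨r', hr'⟩ := h2 x ζ hζ
    exact ⟨fun l => r l + r' l, congr (mul hr hr' nn nn) (.of_forall fun _ => rfl)
      (.of_forall fun y => by simp only [pow_add, Finset.prod_mul_distrib])⟩
  · choose ξ hξ using Hyp.of_snc hG
    choose o ho using fun x => h x _ (hξ x)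
    have h3 : ∀ l, ∀ x ∈ G l, ∀ y ∈ G l, o x l = o y l := fun l x hx y hy =>
      (hc l).2.constant (f := fun x => o x l) (fun z _ => by
        refine continuousWithinAt_const.congr_of_eventuallyEq (eventually_nhdsWithin_iff.2 ?_) rfl
        filter_upwards [near (ho z), eventually_all.2 fun l => (hξ z l).near] with w r1 r2 r3
          using uniq hG r2 (trans (chg r2 (hξ w) fun _ _ => rfl) (trans (symm (ho w)) r1)) r3) hx hy
    exact ⟨fun l => o (hc l).1.choose l, fun x ζ hζ => trans (ho x)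
      (chg (hξ x) hζ fun l hl => h3 l x hl _ (hc l).1.choose_spec)⟩

end Vale.Agent.P281Z.Cv
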