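import Vale.Agent.P281Z.Cv.Defs
import Vale.Agent.P281Z.Pk.Nu
import Vale.Agent.P281Z.Bs.Cyc

/-!
# P281Z, the cyclic cover which is defined by a relative form
-/

open scoped Manifold ContDiff Topology
open Set Filter Function
open Vale.Agent.P272.K Vale.Agent.P285.H281.FD
open Vale.Agent.P277Z (Hol at_chart hol_const)
open Vale.Agent.P277Z.Slc (isLB_can)
open Vale.Agent.P277.HD (pull)
open Vale.Agent.P281Z.Pk Vale.Agent.P281Z.Pk.Mg

noncomputable section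

namespace Vale.Agent.P281Z.Cv

namespace Cg

variable {w e m N : ℕ} {B : Bs w} {E : Et (B.pow (m * N)) e m} {Q : Set B.W.X}

variable (B N) in
/-- the bundle `K^(-1) ⊗ l^(-N)` -/
def lb : Bd B.W.X :=
  ⟨B.l.ι, B.l.U, fun i j y => B.l.g j i y ^ N * (jacM (B.ch j) (B.ch i) y).det⟩

theorem lb_ok (h : B.Ok) : IsLB w (lb N B) where
  isOpen := h.lb.isOpen
  cover := h.lb.cover
  holo i j c y hc hi hj := ((((lb_hol h.lb hj hi).pow N).mul (jd_hol (co_chart (h.ch j y hj).1)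
    (co_chart (h.ch i y hi).1) (h.ch j y hj).2 (h.ch i y hi).2)) c hc).contDiffAt
  ne_zero i j y hi hj := mul_ne_zero (pow_ne_zero _ (h.lb.ne_zero j i y hj hi))
    (jd_ne (co_chart (h.ch j y hj).1) (co_chart (h.ch i y hi).1) (h.ch j y hj).2 (h.ch i y hi).2)
  cocycle i j k y hi hj hk := by
    simp only [lb]
    rw [← h.lb.cocycle k j i y hk hj hi, jd_mul (co_chart (h.ch k y hk).1)
      (co_chart (h.ch j y hj).1) (co_chart (h.ch i y hi).1) (h.ch k y hk).2 (h.ch j y hj).2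
      (h.ch i y hi).2]
    ring

variable (E Q) in
/-- the bad set -/
def bad : Set E.X.X := {x | ¬ (E.g x ∉ Q ∧ x ∈ off E.G ∧
  ∀ i, E.g x ∈ B.l.U i → E.t i (chartAt (Cm (w + e)) x) x ≠ 0)}

theorem jne {n : ℕ} {X : Mf n} {c c' : Chart n X.X} {x : X.X} (h : At c x) (h' : At c' x) :
    (jacM c c' x).det ≠ 0 := jd_ne (co_chart h.1) (co_chart h'.1) h.2 h'.2

variable (h : E.Geo) (s : Sb E Q)
include h s

theorem bad_iff {i : B.l.ι} {c : Chart (w + e) E.X.X} {x : E.X.X} (hi : E.g x ∈ B.l.U i)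
    (hc : At c x) : x ∉ bad E Q ↔ E.g x ∉ Q ∧ x ∈ off E.G ∧ E.t i c x ≠ 0 := by
  refine not_not.trans (and_congr_right fun a => and_congr_right fun b => ?_)
  have o : ∀ j, E.g x ∈ B.l.U j → x ∈ E.O j := fun j k => ⟨⟨k, mt (s.sub₀ ·) a⟩, b⟩
  rw [h.tchg i c _ x (o i hi) hc (at_chart x),
    mul_ne_zero_iff_left (pow_ne_zero _ (jne hc (at_chart x)))]
  refine ⟨fun k => k i hi, fun k j hj => ?_⟩
  rw [h.lchg i j _ x (o i hi) (o j hj) (at_chart x)]
  exact mul_ne_zero (mul_ne_zero (h.base.lb.ne_zero i j _ hi hj)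
    (pow_ne_zero _ (jne (h.base.ch i _ hi) (h.base.ch j _ hj)))) k

theorem mem_O {i : B.l.ι} {x : E.X.X} (hi : E.g x ∈ B.l.U i) (hx : x ∉ bad E Q) : x ∈ E.O i :=
  let k := (bad_iff h s hi (at_chart x)).1 hx
  ⟨⟨hi, mt (s.sub₀ ·) k.1⟩, k.2.1⟩

theorem bad_an : An (w + e) (bad E Q) := fun x => by
  obtain ⟨i, hi⟩ := h.base.lb.cover (E.g x)
  obtain ⟨k, a, u, h1, h2⟩ := h.den i _ x hi (at_chart x)
  refine (Ana.AnAt.union (s.thin.1.pre h.hol x) (Ana.AnAt.union ((snc_thin_off h.snc).1 x)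
    (Ana.anAt_iInter fun j => Ana.anAt_zero (h1 j).2))).congr ?_
  filter_upwards [h2, at_near (at_chart (n := w + e) x), h.hol.cont.continuousAt.eventually
    (lb_near h.base.lb hi)] with y k1 k2 k3
  rw [← not_iff_not, bad_iff h s k3 k2]
  simp only [mem_union, not_or, mem_preimage, mem_compl_iff, not_not, mem_iInter, mem_ofPred_eq]
  refine and_congr_right fun b1 => and_congr_right fun b2 => not_congr ?_
  obtain ⟨⟨j, b3⟩, b4⟩ := k1 ⟨⟨k3, mt (s.sub₀ ·) b1⟩, b2⟩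
  exact ⟨fun b => (mul_eq_zero.1 ((b4 j).trans (b j))).resolve_left b3,
    fun b j => by rw [← b4, b, mul_zero]⟩

theorem da : Bs.Cy.Da m ((Bd.can (w + e) E.X.X).mul (pull E.g (lb N B))) (bad E Q)
    fun a => E.t a.2 a.1 where
  pos := h.pos.ne'
  an := bad_an h s
  hol a y ha hy := h.thol _ _ y (mem_O h s ha.2 hy) ha.1
  chg a b y ha hb hy := by
    rw [h.tchg _ _ b.1 y (mem_O h s ha.2 hy) ha.1 hb.1,
      h.lchg b.2 a.2 _ y (mem_O h s hb.2 hy) (mem_O h s ha.2 hy) hb.1]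
    simp only [Bd.mul, Bd.can, pull, lb, Bd.pow]
    ring
  ne a y ha hy := ((bad_iff h s ha.2 ha.1).1 hy).2.2

end Cg

open Cg in
theorem crg_of (hR : Rs.RES) (hG : GEN) (hO : Bs.ORDM) (j1 : J1) (j2 : J2) (j3 : J3) (hD : DEN)
    (hC : CPB) : CRG := fun w e m N B E Q hB h s => by
  have hl := lb_ok (N := N) hB
  have hL := lb_mul isLB_can (HolM.lb (Y := B.W.X) h.hol hl)
  obtain ⟨X, p, k, G, lam, h1, h2, h3, h4, h5, h6, h7, h8, h9, h10⟩ := Bs.Cy.core (da h s) hR hL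
    (Bs.Cy.an_den (da h s) fun y => by
      obtain ⟨i, hi⟩ := hB.lb.cover (E.g y)
      obtain ⟨k, a, u, h1, h2⟩ := h.den i _ y hi (at_chart y)
      refine ⟨(_, i), ⟨at_chart y, hi⟩, Fin k, inferInstance, a, u, h1, ?_⟩
      filter_upwards [h2, h.hol.cont.continuousAt.eventually (lb_near hB.lb hi)] with z k1 k2 k3
        using k1 (mem_O h s k2 k3))
  have hg : HolM (w + e) w fun x => E.g (p x) := h.hol.comp h1
  obtain ⟨Q', q1, q2⟩ := hG _ _ X B.W _ (Fin k) G hg h2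
  let C : Et (B.pow N) e 1 := ⟨X, fun x => E.g (p x), Fin k, G, fun i c x =>
    lam (chartAt (Cm (w + e)) (p x), i) x * (dfM p c (chartAt (Cm (w + e)) (p x)) x).det,
    Q, E.Q ∪ Q', fun x => E.ρ (p x)⟩
  have kT : ∀ i c c₁ x, E.g (p x) ∈ B.l.U i → At c x → At c₁ (p x) →
      C.t i c x = lam (c₁, i) x * (dfM p c c₁ x).det := fun i c c₁ x a b d => by
    rw [dfM_chg' (h1.at x) b (at_chart _) d, Matrix.det_mul, ← mul_assoc]
    refine congrArg (· * _) ((h10 (_, i) (c₁, i) x ⟨at_chart _, a⟩ ⟨d, a⟩).trans ?_)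
    exact (mul_comm _ _).trans (congrArg (_ * ·) ((congrArg (_ * ·)
      (lb_self hl a)).trans (mul_one _)))
  have kN : ∀ i c x, E.g (p x) ∈ B.l.U i → At c x → ∀ᶠ y in 𝓝 x, C.t i c y =
      lam (chartAt (Cm (w + e)) (p x), i) y * (dfM p c (chartAt (Cm (w + e)) (p x)) y).det :=
    fun i c x a b => by
      filter_upwards [at_near b, h1.cont.continuousAt.eventually (at_near (at_chart (n := w + e) (p x))),
        hg.cont.continuousAt.eventually (lb_near hB.lb a)] with y k1 k2 k3 using kT i c _ y k3 k1 k2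
  have kD : ∀ c x, At c x → Hol (w + e)
      (fun y => (dfM p c (chartAt (Cm (w + e)) (p x)) y).det) x := fun c x b =>
    hol_det (hol_dfM (h1.at x) b (at_chart _))
  have kH : ∀ i c x, E.g (p x) ∈ B.l.U i → x ∈ off G → At c x → Hol (w + e) (C.t i c) x :=
    fun i c x a b d => (((h9 (_, i) x ⟨at_chart _, a⟩ b).1).mul (kD c x d)).congr
      ((kN i c x a d).mono fun _ => Eq.symm)
  have kZ : ∀ i c x, E.g (p x) ∈ B.l.U i → x ∈ off G → At c x → C.t i c x ≠ 0 :=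
    fun i c x a b d => mul_ne_zero (fun k => (da h s).ne (_, i) _ ⟨at_chart _, a⟩ ((h4 x).1 b)
      (by rw [← (h9 (_, i) x ⟨at_chart _, a⟩ b).2.1, k, zero_pow h.pos.ne']))
      ((imm_iff_det (h1.at x) d (at_chart _)).1 (h5 x b))
  have kC : ∀ i c c' x, At c x → At c' x → C.t i c x = (jacM c c' x).det * C.t i c' x :=
    fun i c c' x a b => by
      simp only [C]
      rw [dfM_chg (h1.at x) b a (at_chart _), Matrix.det_mul]
      ring
  have kL : ∀ i j c x, E.g (p x) ∈ B.l.U i → E.g (p x) ∈ B.l.U j →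
      C.t j c x = (lb N B).g j i (E.g (p x)) * C.t i c x := fun i j c x a b => by
    simp only [C]
    rw [h10 (_, j) (_, i) x ⟨at_chart _, b⟩ ⟨at_chart _, a⟩, ← mul_assoc]
    exact congrArg (· * _ * _) ((congrArg (· * _)
      (jd_self (co_chart (at_chart _).1) (at_chart _).2)).trans (one_mul _))
  have kV : ∀ i c x, E.g (p x) ∈ B.l.U i → At c x → ∃ u v, Hol (w + e) u x ∧ Hol (w + e) v x ∧
      ∀ᶠ y in 𝓝 x, y ∈ off G → v y ≠ 0 ∧ v y * C.t i c y = u y := fun i c x a b => by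
    obtain ⟨u, v, k1, k2, k3⟩ := h8 (_, i) x ⟨at_chart _, a⟩
    refine ⟨_, v, k1.mul (kD c x b), k2, ?_⟩
    filter_upwards [k3, kN i c x a b] with y k4 k5 k6
    exact ⟨(k4 k6).1, by rw [k5, ← mul_assoc, (k4 k6).2]⟩
  have kO : ∀ x ∈ off G, E.g (p x) ∉ Q ∧ p x ∈ off E.G := fun x a => by
    have := not_not.1 ((h4 x).1 a)
    exact ⟨this.1, this.2.1⟩
  have geo : C.Geo := by
    refine ⟨one_pos, ⟨hB.conn, hB.kah, lb_pow hB.lb N, hB.ch⟩, h7 h.kah, hg, h2, s.thin,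
      h.thin.union q1, s.sub.trans subset_union_left, fun y a => q2 y fun b => a (.inr b),
      fun y a => ?_, fun i c x a => kH i c x a.1.1 a.2, fun i c c' x _ a b => by
        rw [pow_one, kC i c c' x a b], fun i j c x a b _ => by
        rw [pow_one, kL i j c x a.1.1 b.1.1]; rfl, fun i c x a b => ?_, fun i c x a b d => ?_,
      h.cont.comp h1.cont, (hC _ X _ G h2).1 _ E.X _ E.G p _ h.snc h1 (fun x a => (kO x a).2) h.cpb⟩
    · have a' : y ∉ E.Q := fun b => a (.inl b)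
      obtain ⟨x, rfl⟩ := h.onto y a'
      obtain ⟨i, hi⟩ := hB.lb.cover (E.g x)
      obtain ⟨z, ⟨k1, k2, k3⟩, k4⟩ := ((h.ne i _ x hi a' (at_chart x)).and_eventually
        (at_near (at_chart (n := w + e) x))).exists
      obtain ⟨σ, -, k5⟩ := h6 z ((bad_iff h s k2.1.1 k4).2 ⟨k1 ▸ mt (s.sub ·) a', k2.2, k3⟩)
      exact ⟨_, (congrArg E.g (k5.self_of_nhds.2.subset (mem_range_self ⟨0, h.pos⟩))).trans k1⟩
    · obtain ⟨u, v, k1, k2, k3⟩ := kV i c x a b
      exact ⟨1, fun _ => v, fun _ => u, fun _ => ⟨k2, k1⟩,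
        k3.mono fun y k4 k5 => ⟨⟨0, (k4 k5.2).1⟩, fun _ => (k4 k5.2).2⟩⟩
    · refine ((hD _ _ X B.W _ _ G x hg h2 (q2 _ fun k => b (.inr k))).and_eventually
        (at_near d)).mono fun y k => ?_
      have k1 : E.g (p y) ∈ B.l.U i := k.1.1.symm ▸ a
      exact ⟨k.1.1, ⟨⟨k1, (kO y k.1.2).1⟩, k.1.2⟩, kZ i c y k1 k.1.2 k.2⟩
  refine ⟨C, p, bad E Q, h, s, geo, rfl, subset_union_left, h1, fun _ => rfl,
    (bad_an h s).closed, fun i x a => bad_iff h s a (at_chart x), h4, h5, h6, fun _ => rfl,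
    fun x a => ?_, h3, fun i c x a => kZ i c x a.1.1 a.2, ?_⟩
  · obtain ⟨q', k1, k2, k3, -⟩ := ex_pc (h.hol.at (p x)) (s.sbm _ (kO x a).2 (kO x a).1)
      (at_chart _) univ_mem
    have k4 : ∀ χ y, p y ∈ q'.2.source → At χ (E.g (p y)) → _ := fun χ y b d =>
      j3 w e E.X B.W χ E.g 0 _ (p y) h.hol d (at_chart _) (fun _ => hol_const 0 _) q' m
    have k5 : ∀ χ y, p y ∈ q'.2.source → At χ (E.g (p y)) → _ := fun χ y b d =>
      (j1 w e E.X B.W χ E.g _ _ (p y) h.hol d (at_chart _) (k4 χ y b d 0 k1 b).1).2.2.2.2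
        X p _ y h1 rfl (at_chart y)
    obtain ⟨q, k6, k7, k8, k9, k10⟩ := ((j2 w e X B.W _ C.g _ _ x hg (at_chart _) (at_chart x)
      fun b => h1.hol ((k4 _ x k3 (at_chart _) 0 k1 k3).1 b)).1 (by
        rw [k5 _ x k3 (at_chart _)]
        exact mul_ne_zero ((imm_iff_det (h1.at x) (at_chart x) (at_chart _)).1 (h5 x a))
          (k4 _ x k3 (at_chart _) 0 k1 k3).2.1)).2 (off G ∩ p ⁻¹' q'.2.source)
      (inter_mem ((snc_open_off h2).mem_nhds a)
        (h1.cont.continuousAt.preimage_mem_nhds (q'.2.open_source.mem_nhds k3)))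
    refine ⟨q, q', k6, k1, k2.trans k7.symm, k8, fun y b => ⟨(k9 b).1, (k9 b).2, ?_, fun i d => ?_⟩⟩
    · rw [← pc_eq k6 b, ← pc_eq k1 (k9 b).2, k10 y b, k7, k2]
    · have d' := hB.ch i _ d
      obtain ⟨-, l1, l2⟩ := k4 _ y (k9 b).2 d' (E.t i) k1 (k9 b).2
      obtain ⟨l3, -, l4⟩ := j3 w e X B.W _ C.g 0 _ y hg d' (at_chart y) (fun _ => hol_const 0 _)
        q 1 (C.t i) k6 b
      replace l4 := l4 (geo.tchg i _ _ y ⟨⟨d, (kO y (k9 b).1).1⟩, (k9 b).1⟩ (at_chart y) (at_chart y))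
      rw [pow_one, (j1 w e X B.W _ C.g _ _ y hg d' (at_chart y)
        fun b' => h1.hol ((k4 _ y (k9 b).2 d' 0 k1 (k9 b).2).1 b')).2.2.2.1 _ fun b' =>
          (q.2.open_source.eventually_mem b).mono fun z hz => congrFun (k10 z hz) b',
        k5 _ y (k9 b).2 d', mul_left_comm, mul_comm] at l4
      refine mul_right_cancel₀ (pow_ne_zero m l1) ?_
      rw [← mul_pow, mul_right_cancel₀ ((imm_iff_det (h1.at y) (at_chart y) (at_chart _)).1
        (h5 y (k9 b).1)) l4, l2 (h.tchg i _ _ _ (mem_O h s d ((h4 y).1 (k9 b).1)) (at_chart _)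
          (at_chart _))]
      exact (h9 (_, i) y ⟨at_chart _, d⟩ (k9 b).1).2.1
  · obtain ⟨o, ho⟩ := hO _ X _ G ((Bd.can _ X.X).mul (pull C.g (lb N B))) (fun a => C.t a.2 a.1) h2 h3
      (lb_mul isLB_can (HolM.lb (Y := B.W.X) hg hl)) ⟨fun a x b d => kH _ _ x b.2 (not_not.1 d) b.1,
        fun a b x c d _ => (kC a.2 a.1 b.1 x c.1 d.1).trans ((congrArg (_ * ·)
          (kL b.2 a.2 _ x d.2 c.2)).trans (mul_assoc _ _ _).symm), fun a x b => by
          obtain ⟨u, v, k1, k2, k3⟩ := kV _ _ x b.2 b.1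
          have k4 := ((snc_thin_off h2).gen x).and (P277Z.gen_of_nhds k3)
          exact ⟨u, v, k1, k2, P277Z.nz_of_gen (k4.mono fun y c => (c.2 (not_not.1 c.1)).1),
            k4.mono fun y c => (mul_comm _ _).trans (c.2 (not_not.1 c.1)).2⟩⟩
      fun a x b d => kZ _ _ x b.2 d b.1
    exact ⟨o, fun i c x a b => ho (c, i) x ⟨b, a⟩⟩

end Vale.Agent.P281Z.Cv
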