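import Vale.Agent.P281Z.Cv.Defs
import Vale.Agent.P281Z.Pk.Rl
import Vale.Agent.P281Z.U1.Dett
import Vale.Agent.P281Z.Gl.Thn

/-!
# P281Z, the cover of the fibre power: Jacobians
-/

open scoped Manifold ContDiff Topology
open Set Filter Matrix
open Vale.Agent.P272.K
open Vale.Agent.P277Z (Hol jd at_chart)
open Vale.Agent.P277Z.Slc (Ind dd dd_congr)
open Vale.Agent.P281Z.Hg (PC IsPC)
open Vale.Agent.P281Z.Pk Vale.Agent.P281Z.Pk.Mg
open Vale.Agent.P281Z.U1.Dt (gm jd_app gm_comp gm_chart hol_jd jd_chg detR_right exists_AB)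

noncomputable section

namespace Vale.Agent.P281Z.Cv

namespace Jc

section alg

variable {p d n : ℕ} (σ : Fin p ⊕ Fin d ≃ Fin n) {k : ℕ}

theorem row_zero (A : Matrix (Fin p) (Fin k) ℂ) (R : Matrix (Fin d) (Fin k) ℂ) (v : Fin k → ℂ) :
    (fromRows A R).submatrix σ.symm id *ᵥ v = 0 ↔ A *ᵥ v = 0 ∧ R *ᵥ v = 0 := by
  rw [← Sum.elim_eq_iff, ← fromRows_mulVec, Sum.elim_zero_zero]
  exact ⟨fun h => funext fun a => by simpa [mulVec] using congrFun h (σ a),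
    fun h => funext fun a => congrFun h (σ.symm a)⟩

theorem detR_ne {A : Matrix (Fin p) (Fin n) ℂ} {R : Matrix (Fin d) (Fin n) ℂ} :
    detR σ A R ≠ 0 ↔ ∀ v, A *ᵥ v = 0 → R *ᵥ v = 0 → v = 0 := by
  rw [detR, Ne, ← exists_mulVec_eq_zero_iff]
  simp only [row_zero, not_exists, not_and]
  exact forall_congr' fun v => ⟨fun h a b => by_contra fun k => h k a b, fun h k a b => k (h a b)⟩

theorem ex_rows {A : Matrix (Fin p) (Fin n) ℂ} {R : Matrix (Fin d) (Fin n) ℂ}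
    (h : detR σ A R ≠ 0) : ∃ I : Fin d → Fin n, detR σ A ((1 : Matrix _ _ ℂ).submatrix I id) ≠ 0 := by
  by_contra! k
  let F := ((detRowAlternating (n := Fin n) (R := ℂ)).toMultilinearMap.domDomCongr σ.symm).currySum A
  have e : ∀ R : Matrix (Fin d) (Fin n) ℂ, F R = detR σ A R := fun R => by
    refine congrArg det (Matrix.ext fun i b => ?_)
    simp only [submatrix_apply, id]
    rcases σ.symm i with i | i <;> rfl
  have h2 : F = 0 := Module.Basis.ext_multilinear (fun _ => Pi.basisFun ℂ (Fin n)) fun I => by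
    refine Eq.trans ?_ ((e _).trans (k I))
    congr 1
    ext a b
    simp [one_apply, Pi.single_apply, eq_comm]
  exact h ((e R).symm.trans (DFunLike.congr_fun h2 R))

end alg

variable {w e : ℕ} {X : Mf (w + e)} {W : Mf w} {χ χ' : Chart w W.X} {g : X.X → W.X}
  {u u' : Fin e → X.X → ℂ} {c : Chart (w + e) X.X} {x : X.X}

theorem jf_eq (hg : HolA (w + e) w g x) (hχ : At χ (g x)) (hc : At c x)
    (hu : ∀ a, Hol (w + e) (u a) x) :
    jf χ g u c x = detR finSumFinEquiv (dfM g c χ x) (gm u c x) := by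
  rw [jf, jd_app (fun a => hg.hol (hol_chart hχ a)) hu hc, gm_chart hg hc hχ]

theorem hol_app (hg : HolA (w + e) w g x) (hχ : At χ (g x)) (hu : ∀ a, Hol (w + e) (u a) x) :
    ∀ i, Hol (w + e) (Fin.append (fun a x => χ (g x) a) u i) x :=
  Fin.addCases (by simpa using fun a => hg.hol (hol_chart hχ a)) (by simpa using hu)

theorem jf_base (hg : HolA (w + e) w g x) (hχ : At χ (g x)) (hχ' : At χ' (g x)) (hc : At c x)
    (hu : ∀ a, Hol (w + e) (u a) x) : jf χ' g u c x = (jacM χ χ' (g x)).det * jf χ g u c x := by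
  rw [jf_eq hg hχ hc hu, jf_eq hg hχ' hc hu, dfM_chg' hg hc hχ hχ', detR_left]

theorem jd_congr {n : ℕ} {X : Type} [TopologicalSpace X] [ChartedSpace (Cm n) X] {x : X}
    {c : Chart n X} {u u' : Fin n → X → ℂ} (hc : At c x) (h : ∀ᶠ y in 𝓝 x, ∀ i, u i y = u' i y) :
    jd u c x = jd u' c x := by
  rw [jd, jd, EventuallyEq.fderiv_eq ((at_ev hc h).mono fun z hz => funext hz)]

theorem pc_hol {q : PC w e X.X W.X} (hq : IsPC g q) (hx : x ∈ q.2.source) (a : Fin e) :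
    Hol (w + e) (fun y => (q.2 y).2 a) x := (((pc_co hq).an x hx).cmp analyticAt_snd).hol a

theorem jf_pc {q : PC w e X.X W.X} (hg : HolA (w + e) w g x) (hχ : At χ (g x)) (hc : At c x)
    (hq : IsPC g q) (hx : x ∈ q.2.source) : jf χ g (fun a y => (q.2 y).2 a) c x =
      (jacM q.1 χ (g x)).det * (jacM c (qc q) x).det := by
  rw [jf_base hg (pc_at hq hx) hχ hc (pc_hol hq hx), jd_eq (co_chart hc.1) (qc_co hq) hc.2 hx]
  refine congrArg _ (jd_congr (u' := fun i y => qc q y i) hc ?_)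
  filter_upwards [q.2.open_source.mem_nhds hx] with y hy
  refine Fin.addCases (fun a => ?_) fun a => ?_
  · rw [Fin.append_left, ← (hq.2.fst y hy).2]
    exact (Fin.append_left _ _ a).symm
  · rw [Fin.append_right]
    exact (Fin.append_right _ _ a).symm

theorem jf_pc_ne {q : PC w e X.X W.X} (hg : HolA (w + e) w g x) (hχ : At χ (g x)) (hc : At c x)
    (hq : IsPC g q) (hx : x ∈ q.2.source) : jf χ g (fun a y => (q.2 y).2 a) c x ≠ 0 := by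
  rw [jf_pc hg hχ hc hq hx]
  exact mul_ne_zero (jd_ne (co_chart hq.1) (co_chart hχ.1) (pc_at hq hx).2 hχ.2)
    (jd_ne (co_chart hc.1) (qc_co hq) hc.2 hx)

theorem gm_ap {n n₁ n₂ e₁ e₂ : ℕ} {X : Mf n} {X₁ : Mf n₁} {X₂ : Mf n₂} {p₁ : X.X → X₁.X}
    {p₂ : X.X → X₂.X} {c : Chart n X.X} {c₁ : Chart n₁ X₁.X} {c₂ : Chart n₂ X₂.X}
    {u₁ : Fin e₁ → X₁.X → ℂ} {u₂ : Fin e₂ → X₂.X → ℂ} {x : X.X} (h₁ : HolA n n₁ p₁ x)
    (h₂ : HolA n n₂ p₂ x) (hc : At c x) (hc₁ : At c₁ (p₁ x)) (hc₂ : At c₂ (p₂ x))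
    (k₁ : ∀ a, Hol n₁ (u₁ a) (p₁ x)) (k₂ : ∀ a, Hol n₂ (u₂ a) (p₂ x)) :
    (∀ a, Hol n (ap p₁ p₂ u₁ u₂ a) x) ∧ gm (ap p₁ p₂ u₁ u₂) c x =
      (fromRows (gm u₁ c₁ (p₁ x) * dfM p₁ c c₁ x) (gm u₂ c₂ (p₂ x) * dfM p₂ c c₂ x)).submatrix
        finSumFinEquiv.symm id := by
  refine ⟨Fin.addCases (by simpa [ap] using fun a => h₁.hol (k₁ a))
    (by simpa [ap] using fun a => h₂.hol (k₂ a)), ?_⟩
  rw [← gm_comp k₁ h₁ hc hc₁, ← gm_comp k₂ h₂ hc hc₂]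
  ext i b
  refine Fin.addCases (fun i => ?_) (fun i => ?_) i <;> simp [gm, ap]

end Jc

open Jc

theorem j1 : J1 := fun w e X W χ g u c x hg hχ hc hu => by
  refine ⟨hol_jd (hol_app (hg.at x) hχ hu) hc, fun c' hc' => ?_,
    fun χ' hχ' => jf_base (hg.at x) hχ hχ' hc hu, fun u' h => jd_congr hc ?_, ?_⟩
  · rw [mul_comm]
    exact jd_chg (hol_app (hg.at x) hχ hu) hc hc'
  · filter_upwards [eventually_all.2 h] with y hy
    exact Fin.addCases (by simp) (by simpa using hy)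
  · rintro X' p c' x' hp rfl hc'
    rw [jf_eq (hg.at _) hχ hc hu, jf_eq ((hg.comp hp).at x') hχ hc' fun a => hp.hol (hu a),
      dfM_comp (hg.at _) (hp.at x') hc' hc hχ, gm_comp hu (hp.at x') hc' hc, detR_mul, mul_comm]

theorem j2 : J2 := fun w e X W χ g u c x hg hχ hc hu => by
  refine ⟨fun h => ?_, fun hs => ?_⟩
  · have h1 := Gt.Thn.holA_cm (G := fun y i => Fin.append (fun a x => χ (g x) a) u i y)
      (hol_app (hg.at x) hχ hu)
    have h2 : Ind (w + e) (Fin.append (fun a x => χ (g x) a) u) x :=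
      (sbm_iff_ind h1 (at_chart _)).1 (imm_iff_sbm.1 ((Gt.Thn.jd_ne h1 hc).1 h))
    refine ⟨(sbm_iff_ind (hg.at x) hχ).2 (ind_congr (h2.comp (Fin.castAdd e)
      (Fin.castAdd_injective w e)) fun a => .of_forall fun y => ?_), fun U hU => ?_⟩
    · exact congrFun (Fin.append_left (fun a x => χ (g x) a) u a) y
    obtain ⟨Θ, k1, k2, k3, k4⟩ := exists_co h2 (d := 0) (by simp)
      (inter_mem hU (hg.cont.continuousAt.eventually (at_near hχ)))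
    let T := (ContinuousLinearEquiv.prodUnique ℂ (Cm (w + e)) (Cm 0)).trans (apL w e).symm
    refine ⟨(χ, Θ.transHomeomorph T.toHomeomorph), pc_of_co (k1.trans T) hχ.1 fun y hy =>
      ⟨(k3 hy).2.2, funext fun a => ?_⟩, rfl, k2, fun y hy => (k3 hy).1,
      fun y hy => funext fun a => ?_⟩
    · exact (congrFun (k4 y hy) (Fin.castAdd e a)).trans (congrFun (Fin.append_left _ _ a) y)
    · exact (congrFun (k4 y hy) (Fin.natAdd w a)).trans (congrFun (Fin.append_right _ _ a) y)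
  · obtain ⟨q, h1, -, h2, -⟩ := ex_pc (hg.at x) hs hχ univ_mem
    have h3 := jf_pc_ne (hg.at x) hχ hc h1 h2
    rw [jf_eq (hg.at x) hχ hc (pc_hol h1 h2)] at h3
    obtain ⟨I, hI⟩ := ex_rows _ h3
    refine ⟨I, ?_⟩
    rw [← dfM_id_self hc, ← gm_chart (f := fun x => x) (holM_id.at x) hc hc] at hI
    rwa [jf_eq (hg.at x) hχ hc fun a => hol_chart hc (I a)]

theorem j3 : J3 := fun w e X W χ g _ c x hg hχ hc _ q m t hq hx => by
  refine ⟨pc_hol hq hx, jf_pc_ne (hg.at x) hχ hc hq hx, fun h => ?_⟩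
  have a := pc_at hq hx
  have b := at_chart (n := w + e) x
  have h1 := (jd_mul (co_chart hχ.1) (co_chart a.1) (co_chart hχ.1) hχ.2 a.2 hχ.2).symm.trans
    (jd_self (co_chart hχ.1) hχ.2)
  rw [h, jf_pc (hg.at x) hχ hc hq hx, rl,
    jd_mul (co_chart hc.1) (qc_co hq) (co_chart b.1) hc.2 hx b.2, mul_assoc, ← mul_pow, mul_comm,
    mul_assoc, ← mul_assoc (jacM χ q.1 (g x)).det, h1, one_mul, mul_comm (jacM (qc q) _ x).det]

theorem j4 : J4 := by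
  intro w e₁ e₂ X X₁ X₂ W χ g g₁ g₂ p₁ p₂ c c₁ c₂ u₁ u₂ x hg₁ hg₂ h₁ h₂ k₁ k₂ hχ hc hc₁ hc₂ hu₁ hu₂
    n₁ n₂
  have hg : HolA _ w g x := (funext k₁ ▸ hg₁.comp h₁ : HolM _ w g).at x
  have a₁ : At χ (g₁ (p₁ x)) := (k₁ x).symm ▸ hχ
  have a₂ : At χ (g₂ (p₂ x)) := (k₂ x).symm ▸ hχ
  have t₁ : dfM g c χ x = dfM g₁ c₁ χ (p₁ x) * dfM p₁ c c₁ x :=
    funext k₁ ▸ dfM_comp (hg₁.at _) (h₁.at x) hc hc₁ a₁
  have t₂ : dfM g c χ x = dfM g₂ c₂ χ (p₂ x) * dfM p₂ c c₂ x :=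
    funext k₂ ▸ dfM_comp (hg₂.at _) (h₂.at x) hc hc₂ a₂
  obtain ⟨b₁, b₂⟩ := gm_ap (h₁.at x) (h₂.at x) hc hc₁ hc₂ hu₁ hu₂
  rw [jf_eq hg hχ hc b₁, b₂]
  rw [jf_eq (hg₁.at _) a₁ hc₁ hu₁] at n₁ ⊢
  rw [jf_eq (hg₂.at _) a₂ hc₂ hu₂] at n₂ ⊢
  refine ⟨fun h => (detR_ne _).2 fun ξ d₁ d₂ => ?_, fun v₁ v₂ hv₁ hv₂ => ?_⟩
  · rw [row_zero, ← mulVec_mulVec, ← mulVec_mulVec] at d₂
    refine h ξ ?_ ?_ <;> rw [← dfM_mulVec]
    · exact (detR_ne _).1 n₁ _ (by rw [mulVec_mulVec, ← t₁, d₁]) d₂.1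
    · exact (detR_ne _).1 n₂ _ (by rw [mulVec_mulVec, ← t₂, d₁]) d₂.2
  obtain ⟨b₃, b₄⟩ := gm_ap (h₁.at x) (h₂.at x) hc hc₁ hc₂ hv₁ hv₂
  obtain ⟨A₁, B₁, r₁⟩ := exists_AB _ n₁ (gm v₁ c₁ (p₁ x))
  obtain ⟨A₂, B₂, r₂⟩ := exists_AB _ n₂ (gm v₂ c₂ (p₂ x))
  have e : (fromRows (gm v₁ c₁ (p₁ x) * dfM p₁ c c₁ x) (gm v₂ c₂ (p₂ x) * dfM p₂ c c₂ x)).submatrix
      finSumFinEquiv.symm id = (fromRows A₁ A₂).submatrix finSumFinEquiv.symm id * dfM g c χ x +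
      (fromBlocks B₁ 0 0 B₂).submatrix finSumFinEquiv.symm finSumFinEquiv.symm *
        (fromRows (gm u₁ c₁ (p₁ x) * dfM p₁ c c₁ x) (gm u₂ c₂ (p₂ x) * dfM p₂ c c₂ x)).submatrix
          finSumFinEquiv.symm id := by
    rw [submatrix_mul_equiv, fromBlocks_mul_fromRows, r₁, r₂, Matrix.add_mul, Matrix.add_mul,
      Matrix.mul_assoc A₁, Matrix.mul_assoc A₂, ← t₁, ← t₂, Matrix.zero_mul, Matrix.zero_mul,
      add_zero, zero_add, Matrix.mul_assoc, Matrix.mul_assoc]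
    ext i b
    simp only [submatrix_apply, Matrix.add_apply, mul_apply (N := dfM g c χ x), id]
    rcases finSumFinEquiv.symm i with i | i <;> rfl
  rw [jf_eq hg hχ hc b₃, b₄, e, detR_right, jf_eq (hg₁.at _) a₁ hc₁ hv₁,
    jf_eq (hg₂.at _) a₂ hc₂ hv₂, r₁, r₂, detR_right, detR_right, det_submatrix_equiv_self,
    det_fromBlocks_zero₁₂]
  ring

end Vale.Agent.P281Z.Cv
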