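import Vale.Agent.P281Z.Cv.Defs
import Vale.Agent.P281Z.Pk.Null
import Vale.Agent.P281Z.Mf.Loc
import Mathlib.Algebra.Order.Chebyshev

/-!
# P281Z, the cover of the fibre power: means
-/

open scoped Manifold ContDiff Topology ENNReal NNReal
open Set Filter MeasureTheory
open Vale.Agent.P272.K Vale.Agent.P285.H281.FD
open Vale.Agent.P277Z (Hol jd at_chart hol_const)
open Vale.Agent.P281Z.Hg (PC IsPC)
open Vale.Agent.P281Z.Pk

noncomputable section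

namespace Vale.Agent.P281Z.Cv

namespace Mean

section meas

variable {X Y : Type} {p : X → Y} {m : ℕ}

/-- `σ` enumerates the fibre over `y` -/
def En (p : X → Y) (y : Y) (σ : Fin m → X) : Prop := Function.Injective σ ∧ range σ = p ⁻¹' {y}

theorem En.map {y : Y} {σ : Fin m → X} (h : En p y σ) (k : Fin m) : p (σ k) = y :=
  (h.2 ▸ mem_range_self k : σ k ∈ p ⁻¹' {y})

theorem En.tsum {y : Y} {σ : Fin m → X} (h : En p y σ) (f : X → ℝ≥0∞) :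
    ∑' x : p ⁻¹' {y}, f x = ∑ k, f (σ k) := by
  rw [← h.2, tsum_range f h.1, tsum_fintype]

theorem En.fsum {y : Y} {σ : Fin m → X} (h : En p y σ) (f : X → ℂ) :
    ∑ᶠ x ∈ p ⁻¹' {y}, f x = ∑ k, f (σ k) := by
  rw [← h.2, finsum_mem_range h.1, finsum_eq_sum_of_fintype]

theorem sum_ofReal {a : Fin m → ℝ} (h : ∑ k, a k = 0) :
    ∑ k, ENNReal.ofReal (a k) = ∑ k, ENNReal.ofReal (-a k) := by
  have h1 : ∀ t : ℝ, ENNReal.ofReal t = ENNReal.ofReal (max t 0) := fun t => by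
    rw [ENNReal.ofReal_max, ENNReal.ofReal_zero, max_eq_left (zero_le)]
  rw [Finset.sum_congr rfl fun k _ => h1 (a k), Finset.sum_congr rfl fun k _ => h1 (-a k),
    ← ENNReal.ofReal_sum_of_nonneg fun k _ => le_max_right _ _,
    ← ENNReal.ofReal_sum_of_nonneg fun k _ => le_max_right _ _]
  refine congrArg _ (sub_eq_zero.1 ((Finset.sum_sub_distrib _ _).symm.trans
    ((Finset.sum_congr rfl fun k _ => ?_).trans h)))
  rcases le_total (a k) 0 with t | t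
  · rw [max_eq_right t, max_eq_left (neg_nonneg.2 t), zero_sub, neg_neg]
  · rw [max_eq_left t, max_eq_right (neg_nonpos.2 t), sub_zero]

theorem enorm_sum_sq (a : Fin m → ℂ) : ‖∑ k, a k‖ₑ ^ 2 ≤ m * ∑ k, ‖a k‖ₑ ^ 2 := by
  have h : ‖∑ k, a k‖₊ ^ 2 ≤ m * ∑ k, ‖a k‖₊ ^ 2 := by
    refine (pow_le_pow_left₀ (zero_le) (nnnorm_sum_le _ _) 2).trans ?_
    simpa using sq_sum_le_card_mul_sum_sq (s := Finset.univ) (f := fun k => ‖a k‖₊)
  simp only [enorm_eq_nnnorm]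
  exact_mod_cast h

variable [MeasurableSpace X] [MeasurableSpace Y] {μ : Measure X} {ν : Measure Y}

theorem int_real (T : ∀ f : X → ℝ≥0∞, Measurable f →
      ∫⁻ x, f x ∂μ = ∫⁻ y, ∑' x : p ⁻¹' {y}, f x ∂ν) {f : X → ℝ} (hf : Measurable f)
    (hi : Integrable f μ) (h : ∀ᵐ y ∂ν, ∃ σ : Fin m → X, En p y σ ∧ ∑ k, f (σ k) = 0) :
    ∫ x, f x ∂μ = 0 := by
  rw [integral_eq_lintegral_pos_part_sub_lintegral_neg_part hi, T _ hf.ennreal_ofReal,
    T (fun x => ENNReal.ofReal (-f x)) hf.neg.ennreal_ofReal, sub_eq_zero]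
  refine congrArg _ (lintegral_congr_ae (h.mono ?_))
  rintro y ⟨σ, h1, h2⟩
  exact (h1.tsum fun x => ENNReal.ofReal (f x)).trans
    ((sum_ofReal h2).trans (h1.tsum fun x => ENNReal.ofReal (-f x)).symm)

theorem int_zero (T : ∀ f : X → ℝ≥0∞, Measurable f →
      ∫⁻ x, f x ∂μ = ∫⁻ y, ∑' x : p ⁻¹' {y}, f x ∂ν) {f : X → ℂ} (hf : Measurable f)
    (hi : Integrable f μ) (h : ∀ᵐ y ∂ν, ∃ σ : Fin m → X, En p y σ ∧ ∑ k, f (σ k) = 0) :
    ∫ x, f x ∂μ = 0 := by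
  refine Complex.ext ((integral_re hi).symm.trans ?_) ((integral_im hi).symm.trans ?_)
  · exact int_real T (Complex.measurable_re.comp hf) hi.re (h.mono fun y ⟨σ, h1, h2⟩ =>
      ⟨σ, h1, (Complex.re_sum _ _).symm.trans (congrArg Complex.re h2)⟩)
  · exact int_real T (Complex.measurable_im.comp hf) hi.im (h.mono fun y ⟨σ, h1, h2⟩ =>
      ⟨σ, h1, (Complex.im_sum _ _).symm.trans (congrArg Complex.im h2)⟩)

theorem integrable_of {φ : X → ℂ} {r : X → ℝ} (hφ : Measurable φ) (hr : Measurable r)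
    (h0 : ∀ x, 0 ≤ r x) (h1 : ∫⁻ x, ENNReal.ofReal (r x) ∂μ < ⊤)
    (h2 : ∫⁻ x, ‖φ x‖ₑ ^ 2 * ENNReal.ofReal (r x) ∂μ < ⊤) :
    Integrable (fun x => φ x * (r x : ℂ)) μ := by
  refine ⟨(hφ.mul (Complex.measurable_ofReal.comp hr)).aestronglyMeasurable, ?_⟩
  refine lt_of_le_of_lt (lintegral_mono (g := fun x =>
    ENNReal.ofReal (r x) + ‖φ x‖ₑ ^ 2 * ENNReal.ofReal (r x)) fun x => ?_) ?_
  · have h3 : ‖φ x‖ₑ ≤ 1 + ‖φ x‖ₑ ^ 2 := by
      rcases le_total ‖φ x‖ₑ 1 with t | t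
      · exact le_add_right t
      · exact le_add_left (le_self_pow t two_ne_zero)
    have h4 : ‖(r x : ℂ)‖ₑ = ENNReal.ofReal (r x) := by
      rw [← ofReal_norm, Complex.norm_real, Real.norm_of_nonneg (h0 x)]
    change ‖φ x * (r x : ℂ)‖ₑ ≤ _
    rw [enorm_mul, h4]
    exact (mul_le_mul_left h3 _).trans_eq (by rw [add_mul, one_mul])
  · rw [lintegral_add_left hr.ennreal_ofReal]
    exact ENNReal.add_lt_top.2 ⟨h1, h2⟩

end meas

variable {w e m N : ℕ} {B : Bs w} {E : Et (B.pow (m * N)) e m} {Q : Set B.W.X}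
  {C : Et (B.pow N) e 1} {p : C.X.X → E.X.X} {A : Set E.X.X}

/-- the trace -/
def tr (p : C.X.X → E.X.X) (φ : C.X.X → ℂ) (x : E.X.X) : ℂ := ∑ᶠ x' ∈ p ⁻¹' {x}, φ x'

theorem en (h : Cr E Q C p A) {x : E.X.X} (hx : x ∉ A) : ∃ σ : Fin m → C.X.X, En p x σ :=
  let ⟨_, _, k⟩ := h.cvg x hx
  ⟨_, k.self_of_nhds⟩

theorem good (h : Cr E Q C p A) {i : B.l.ι} {y : B.W.X} (hy : y ∈ B.l.U i) (hQ : y ∉ C.Q)
    {x : E.X.X} (hx : E.g x = y) :
    x ∉ A ↔ x ∈ E.O i ∧ E.t i (chartAt (Cm (w + e)) x) x ≠ 0 := by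
  have hQ' : E.g x ∉ Q := fun k => hQ (h.sub (h.sb₀.sub (hx ▸ k)))
  rw [h.bad i x (hx ▸ hy)]
  exact ⟨fun k => ⟨⟨⟨hx ▸ hy, fun k' => hQ' (h.sb₀.sub₀ k')⟩, k.2.1⟩, k.2.2⟩,
    fun k => ⟨hQ', k.1.2, k.2⟩⟩

theorem fh_tr (hF : FHT) (h : Cr E Q C p A) {φ : C.X.X → ℂ} {x : E.X.X} (hx : x ∉ A)
    (hφ : ∀ x' ∈ off C.G, C.g x' = E.g x → FH C.g φ x') : FH E.g (tr p φ) x := by
  obtain ⟨σ, h1, h2⟩ := h.cvg x hx
  have h3 : ∀ᶠ z in 𝓝 x, En p z fun k => σ k z := h2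
  have h4 : ∀ k, FH E.g (fun z => φ (σ k z)) x := fun k => by
    have k0 : p (σ k x) = x := h3.self_of_nhds.map k
    have k1 : σ k x ∈ off C.G := (h.mem _).2 (k0.symm ▸ hx)
    obtain ⟨q, q', a, b, -, c, d⟩ := h.chart _ k1
    obtain ⟨-, d1, d2, -⟩ := d _ c
    rw [k0] at d1 d2
    have k2 := hφ _ k1 ((h.g _).symm.trans (congrArg E.g k0)) q a c
    rw [d2] at k2
    refine (hF w e _ _ E.g _ x h.geo₀.hol).2.1 q' b d1 (k2.congr ?_)
    have k3 : ∀ᶠ z in 𝓝 x, σ k z = q.2.symm (q'.2 z) := by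
      filter_upwards [h3, (h1 k).cont.eventually (q.2.open_source.mem_nhds c)] with z s t
      rw [← q.2.left_inv t, (d _ t).2.2.1, s.map k]
    have k4 : Tendsto (fun z => ((q'.2 x).1, z)) (𝓝 (q'.2 x).2) (𝓝 (q'.2 x)) :=
      (Continuous.prodMk_right (q'.2 x).1).tendsto _
    filter_upwards [k4.eventually ((q'.2.tendsto_symm d1).eventually k3),
      k4.eventually (q'.2.open_target.mem_nhds (q'.2.map_source d1))] with z s t
    rw [s, q'.2.right_inv t]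
  refine (hF w e _ _ E.g (fun z => ∑ k, φ (σ k z)) x h.geo₀.hol).2.2.2 _
    (h3.mono fun z s _ => s.fsum φ) fun q a b => ?_
  exact Finset.analyticAt_fun_sum _ fun k _ => h4 k q a b

theorem hol_tr (h : Cr E Q C p A) {φ : C.X.X → ℂ} {x : E.X.X} (hx : x ∉ A)
    (hφ : ∀ x' ∈ off C.G, C.g x' = E.g x → Hol (w + e) φ x') : Hol (w + e) (tr p φ) x := by
  obtain ⟨σ, h1, h2⟩ := h.cvg x hx
  have h3 : ∀ᶠ z in 𝓝 x, En p z fun k => σ k z := h2
  refine (Hol.sum Finset.univ (f := fun k z => φ (σ k z)) fun k _ => (h1 k).hol ?_).congr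
    (h3.mono fun z s => (s.fsum φ).symm)
  have k0 : p (σ k x) = x := h3.self_of_nhds.map k
  exact hφ _ ((h.mem _).2 (k0.symm ▸ hx)) ((h.g _).symm.trans (congrArg E.g k0))

/-- the mean is the value of the trace -/
theorem main (hN : NUL) (hB : BIGO) (hT : TRF) (hP : POS) (hR : RHO0) (hF : FHT)
    (h : Cr E Q C p A) (hE : E.Ok) {i : B.l.ι} {y : B.W.X} (hy : y ∈ B.l.U i) (hQ : y ∉ C.Q)
    {φ : C.X.X → ℂ} (hφ : ∀ x ∈ off C.G, C.g x = y → FH C.g φ x) (hL : C.L2 i y φ) :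
    ∃ c, (∀ x ∉ A, E.g x = y → tr p φ x = m * c) ∧ C.Mean i y φ c := by
  classical
  have hQ' : y ∉ E.Q := fun k => hQ (h.sub k)
  obtain ⟨t1, t2⟩ := hT w e m N B E Q C p A h i y hy hQ
  obtain ⟨b1, b2⟩ := hB _ _ _ _ E h.geo₀ i
  have a1 : ∀ᵐ x ∂E.ν i y, x ∉ A ∧ E.g x = y := by
    filter_upwards [hN _ _ _ _ E h.geo₀ i y hy hQ' _ b1 (b2 y hy hQ'),
      (hP _ _ _ _ E h.geo₀ i y hy hQ').1] with x s t
    exact ⟨(good h hy hQ t.2).2 s, t.2⟩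
  let S : Set C.X.X := off C.G ∩ C.g ⁻¹' {y}
  have hS : MeasurableSet S := (snc_open_off h.geo.snc).measurableSet.inter
    (isClosed_singleton.preimage h.geo.hol.cont).measurableSet
  have hc : ContinuousOn φ S := fun x hx => ((hF w e _ _ C.g φ x h.geo.hol).2.2.1
    ((h.geo.reg y hQ).sbm h.geo.hol h.geo.snc hx.2) (hφ x hx.1 hx.2)).mono
      fun z hz => hz.2.trans hx.2.symm
  have hm : Measurable (S.piecewise φ 0) := hc.measurable_piecewise continuousOn_const hS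
  have a2 : ∀ᵐ x ∂C.ν i y, S.piecewise φ 0 x = φ x := by
    filter_upwards [(hP _ _ _ _ C h.geo i y hy hQ).1] with x s
    exact piecewise_eq_of_mem _ _ _ ⟨s.1.2, s.2⟩
  have a3 : ∀ {x σ}, x ∉ A → E.g x = y → En (m := m) p x σ → ∀ k,
      S.piecewise φ 0 (σ k) = φ (σ k) ∧ C.ρ (σ k) = E.ρ x := fun s t u k =>
    ⟨piecewise_eq_of_mem _ _ _ ⟨(h.mem _).2 ((u.map k).symm ▸ s),
      (h.g _).symm.trans ((congrArg E.g (u.map k)).trans t)⟩,
      (h.rho _).trans (congrArg E.ρ (u.map k))⟩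
  generalize S.piecewise φ 0 = φ' at hm a2 a3
  have hr : ∀ ε : ℝ, Measurable fun x => C.ρ x ^ ε := fun ε => h.geo.cont.measurable.pow_const ε
  have hL' : ∀ ε : ℝ, 0 < ε → ∫⁻ x, ‖φ' x‖ₑ ^ 2 * C.wt ε x ∂C.ν i y < ⊤ := fun ε hε =>
    (lintegral_congr_ae (a2.mono fun x s => by rw [s])).trans_lt (hL ε hε)
  obtain ⟨c, hc⟩ := hE.un i y hy hQ' _ b1 (fun _ k => k.1) (b2 y hy hQ') (tr p φ)
    (fun x s t => fh_tr hF h ((good h hy hQ t).2 s) fun x' u v => hφ x' u (v.trans t))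
    fun ε hε => by
      have k := hL' ε hε
      rw [(t1 (fun x => ‖φ' x‖ₑ ^ 2 * C.wt ε x)
        ((hm.enorm.pow_const 2).mul (hr ε).ennreal_ofReal)).2] at k
      refine lt_of_le_of_lt (lintegral_mono_ae (a1.mono fun x s => ?_))
        ((lintegral_const_mul' (m : ℝ≥0∞) _ (ENNReal.natCast_ne_top m)).trans_lt
          (ENNReal.mul_lt_top (ENNReal.natCast_lt_top m) k))
      obtain ⟨σ, u⟩ := en h s.1
      rw [tr, u.fsum, u.tsum fun x' => ‖φ' x'‖ₑ ^ 2 * C.wt ε x',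
        Finset.sum_congr rfl fun k _ => show ‖φ' (σ k)‖ₑ ^ 2 * C.wt ε (σ k) =
          ‖φ (σ k)‖ₑ ^ 2 * E.wt ε x by
            rw [Et.wt, Et.wt, (a3 s.1 s.2 u k).1, (a3 s.1 s.2 u k).2],
        ← Finset.sum_mul, ← mul_assoc]
      exact mul_le_mul_left (enorm_sum_sq _) _
  have hm0 : (m : ℂ) ≠ 0 := Nat.cast_ne_zero.2 h.geo₀.pos.ne'
  have hc' : ∀ x ∉ A, E.g x = y → tr p φ x = m * (c / m) := fun x s t => by
    rw [hc x ((good h hy hQ t).1 s) t, mul_div_cancel₀ _ hm0]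
  refine ⟨c / m, hc', fun ε hε => ?_⟩
  generalize c / m = c' at hc'
  have h0 : ∀ x, 0 ≤ C.ρ x ^ ε := fun x => Real.rpow_nonneg ((hR _ _ _ _ C h.geo).1 x) ε
  have hJ : C.J i ε y < ⊤ := by
    rw [t2 ε hε.le]
    exact ENNReal.mul_lt_top (ENNReal.natCast_lt_top m) (hE.fi i y hy hQ' ε hε)
  have i1 := integrable_of hm (hr ε) h0 hJ (hL' ε hε)
  have i2 := integrable_of (φ := fun _ => c') measurable_const (hr ε) h0 hJ
    ((lintegral_const_mul' _ _ (ENNReal.pow_ne_top enorm_ne_top)).trans_lt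
      (ENNReal.mul_lt_top (ENNReal.pow_lt_top enorm_lt_top) hJ))
  have i3 := int_zero (m := m) (fun f hf => (t1 f hf).2)
    (f := fun x => φ' x * ((C.ρ x ^ ε : ℝ) : ℂ) - c' * ((C.ρ x ^ ε : ℝ) : ℂ))
    ((hm.mul (Complex.measurable_ofReal.comp (hr ε))).sub
      (measurable_const.mul (Complex.measurable_ofReal.comp (hr ε)))) (i1.sub i2)
    (a1.mono fun x s => by
      obtain ⟨σ, u⟩ := en h s.1
      refine ⟨σ, u, ?_⟩
      have k := hc' x s.1 s.2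
      rw [tr, u.fsum] at k
      rw [Finset.sum_congr rfl fun k _ => show _ = (φ (σ k) - c') * ((E.ρ x ^ ε : ℝ) : ℂ) by
          rw [(a3 s.1 s.2 u k).1, (a3 s.1 s.2 u k).2, sub_mul],
        ← Finset.sum_mul, Finset.sum_sub_distrib, k, Finset.sum_const, Finset.card_univ,
        Fintype.card_fin, nsmul_eq_mul, sub_self, zero_mul])
  have i4 := (integral_sub i1 i2).symm.trans i3
  rw [sub_eq_zero, integral_const_mul, integral_complex_ofReal,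
    integral_eq_lintegral_of_nonneg_ae (Eventually.of_forall h0) (hr ε).aestronglyMeasurable] at i4
  exact (integral_congr_ae (a2.mono fun x s => by rw [s])).trans i4

end Mean

open Mean in
theorem mean_of (hN : NUL) (hB : BIGO) (hT : TRF) (hP : POS) (hR : RHO0) (hF : FHT) : MEAN := by
  intro w e m N B E Q C p A h hE
  refine ⟨fun i y hy hQ φ hφ hL => (main hN hB hT hP hR hF h hE hy hQ hφ hL).imp fun _ k => k.2,
    fun i O hO hs φ hφ hL => ?_⟩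
  choose! c h1 h2 using fun y (hy : y ∈ O) => main hN hB hT hP hR hF h hE (hs hy).1 (hs hy).2
    (fun x s t => FH.of_hol (hφ x s (t ▸ hy))) (hL y hy)
  refine ⟨c, fun y hy => ⟨?_, h2 y hy⟩⟩
  have hQ' : y ∉ E.Q := fun k => (hs hy).2 (h.sub k)
  obtain ⟨x₀, rfl⟩ := hE.onto y hQ'
  obtain ⟨x, ⟨k1, k2, k3⟩, k4⟩ := ((hE.ne i _ x₀ (hs hy).1 hQ' (at_chart x₀)).and_eventually
    (at_near (at_chart (n := w + e) x₀))).exists
  have hx : x ∉ A := (good h (hs hy).1 (hs hy).2 k1).2 ⟨k2, hE.toGeo.ne_of k2 k4 k3⟩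
  have hm0 : (m : ℂ) ≠ 0 := Nat.cast_ne_zero.2 h.geo₀.pos.ne'
  rw [← k1] at hy hQ' ⊢
  refine ((hE.reg _ hQ').sbm hE.hol hE.snc rfl).hol_desc (hE.hol.at x)
    (((hol_tr h hx fun x' s t => hφ x' s (t ▸ hy)).div (hol_const (m : ℂ) x) hm0).congr ?_)
  filter_upwards [h.cl.isOpen_compl.mem_nhds hx, hE.hol.cont.continuousAt.eventually
    (hO.mem_nhds hy)] with z s t
  rw [h1 _ t z s rfl, mul_div_cancel_left₀ _ hm0]

end Vale.Agent.P281Z.Cv
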