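import Vale.Agent.P281Z.Cv.PrgA

/-!
# P281Z, the cover of the fibre power: fibre products exist
-/

open scoped Manifold ContDiff Topology
open Set Filter
open Vale.Agent.P272.K Vale.Agent.P285.H281.FD
open Vale.Agent.P277Z (Hol jd hol_const at_chart)
open Vale.Agent.P277Z.Slc (LEq Snc)
open Vale.Agent.P281Z.Hg (PC IsPC)
open Vale.Agent.P281Z.Pk

noncomputable section

namespace Vale.Agent.P281Z.Cv

namespace Pg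

variable {w e e₁ e₂ m a b : ℕ} {B : Bs w}

theorem jj (h : J3) {X : Mf (w + e)} {W : Mf w} {g : X.X → W.X} (hg : HolM (w + e) w g) {χ c x}
    (hχ : At χ (g x)) (hc : At c x) {q : PC w e X.X W.X} (hq : IsPC g q) (hx : x ∈ q.2.source)
    (m : ℕ) (t : Chart (w + e) X.X → X.X → ℂ) :
    (∀ a, Hol (w + e) (fun y => (q.2 y).2 a) x) ∧ jf χ g (fun a y => (q.2 y).2 a) c x ≠ 0 ∧
    (t c x = (jacM c (chartAt (Cm (w + e)) x) x).det ^ m * t (chartAt (Cm (w + e)) x) x →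
      rl m χ g t q x * jf χ g (fun a y => (q.2 y).2 a) c x ^ m = t c x) :=
  h w e X W χ g (fun _ _ => 0) c x hg hχ hc (fun _ => hol_const _ _) q m t hq hx

theorem ap_eq {X X₁ X₂ : Type} (p₁ : X → X₁) (p₂ : X → X₂) (u₁ : X₁ → Fin e₁ → ℂ)
    (u₂ : X₂ → Fin e₂ → ℂ) (y : X) : (fun a => ap p₁ p₂ (fun a z => u₁ z a) (fun a z => u₂ z a) a y) =
      Fin.append (u₁ (p₁ y)) (u₂ (p₂ y)) := by
  funext a
  refine Fin.addCases (fun a => ?_) (fun a => ?_) a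
  · rw [ap, Fin.append_left, Fin.append_left]
  · rw [ap, Fin.append_right, Fin.append_right]

variable {E₁ : Et (B.pow a) e₁ m} {E₂ : Et (B.pow b) e₂ m} {Q : Set B.W.X}
  {P : Px E₁.g E₂.g (Og E₁ Q) (Og E₂ Q)} (H : Hy E₁ E₂ Q) {x : P.X.X}
  {t : B.l.ι → Chart (w + (e₁ + e₂)) P.X.X → P.X.X → ℂ} (K : Key P t)
include H K

theorem Hy.chart (hx : x ∈ off P.G) : ∃ (q : PC w (e₁ + e₂) P.X.X B.W.X)
    (q₁ : PC w e₁ E₁.X.X B.W.X) (q₂ : PC w e₂ E₂.X.X B.W.X), IsPC (gg P) q ∧ IsPC E₁.g q₁ ∧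
    IsPC E₂.g q₂ ∧ q₁.1 = q.1 ∧ q₂.1 = q.1 ∧ x ∈ q.2.source ∧ ∀ y ∈ q.2.source, y ∈ off P.G ∧
      P.p₁ y ∈ q₁.2.source ∧ P.p₂ y ∈ q₂.2.source ∧
      (q.2 y).2 = Fin.append (q₁.2 (P.p₁ y)).2 (q₂.2 (P.p₂ y)).2 ∧
      ∀ i, gg P y ∈ B.l.U i → rl m (B.ch i) (gg P) (t i) q y =
        rl m (B.ch i) E₁.g (E₁.t i) q₁ (P.p₁ y) * rl m (B.ch i) E₂.g (E₂.t i) q₂ (P.p₂ y) := by
  have hχ := at_chart (n := w) (gg P x)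
  generalize chartAt (Cm w) (gg P x) = χ at hχ
  have hχ' : At χ (E₂.g (P.p₂ x)) := by rwa [P.g]
  obtain ⟨v₁, v₂, a₁, a₂, b₁, b₂⟩ := H.loc hx hχ (at_chart _) (at_chart _)
  obtain ⟨q₁, c1, c2, c3, -⟩ := ((H.j2 _ _ _ _ _ _ _ _ _ H.g₁.hol hχ (at_chart _) a₁).1 b₁).2
    univ univ_mem
  obtain ⟨q₂, d1, d2, d3, -⟩ := ((H.j2 _ _ _ _ _ _ _ _ _ H.g₂.hol hχ' (at_chart _) a₂).1 b₂).2
    univ univ_mem
  obtain ⟨f1, f2, -⟩ := jj H.j3 H.g₁.hol hχ (at_chart _) c1 c3 0 fun _ _ => 0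
  obtain ⟨f3, f4, -⟩ := jj H.j3 H.g₂.hol hχ' (at_chart _) d1 d3 0 fun _ _ => 0
  obtain ⟨q, g1, g2, g3, g4, g5⟩ := ((H.j2 _ _ _ _ _ _ _ _ _ H.hol hχ (at_chart x)
    (hol_ap P.h₁ P.h₂ f1 f3)).1 (H.ap_ne hx hχ (at_chart x) (at_chart _) (at_chart _) f1 f3 f2 f4)).2
    (off P.G ∩ (P.p₁ ⁻¹' q₁.2.source ∩ P.p₂ ⁻¹' q₂.2.source))
    (inter_mem ((snc_open_off P.snc).mem_nhds hx) (inter_mem
      (P.h₁.cont.continuousAt.preimage_mem_nhds (q₁.2.open_source.mem_nhds c3))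
      (P.h₂.cont.continuousAt.preimage_mem_nhds (q₂.2.open_source.mem_nhds d3))))
  refine ⟨q, q₁, q₂, g1, c1, d1, c2.trans g2.symm, d2.trans g2.symm, g3, fun y hy => ?_⟩
  obtain ⟨k1, k2, k3⟩ := g4 hy
  refine ⟨k1, k2, k3, (g5 y hy).trans (ap_eq _ _ _ _ y), fun i hi => ?_⟩
  have hψ := H.ok.ch i _ hi
  obtain ⟨l1, l2, l3⟩ := jj H.j3 H.hol hψ (at_chart y) g1 hy m (t i)
  obtain ⟨l4, l5, l6⟩ := jj H.j3 H.g₁.hol hψ (at_chart _) c1 k2 m (E₁.t i)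
  obtain ⟨l7, l8, l9⟩ := jj (χ := B.ch i) H.j3 H.g₂.hol (by rwa [P.g]) (at_chart _) d1 k3 m (E₂.t i)
  have e := K i y k1 hi _ _ _ (at_chart y) (at_chart _) (at_chart _) _ _ l4 l7
  rw [← l3 (H.tchg K k1 hi (at_chart y) (at_chart y)),
    ← l6 (H.g₁.tchg i _ _ _ (H.m₁ k1 hi) (at_chart _) (at_chart _)),
    ← l9 (H.g₂.tchg i _ _ _ (H.m₂ k1 hi) (at_chart _) (at_chart _)),
    (H.j1 _ _ _ _ _ _ _ _ y H.hol hψ (at_chart y) l1).2.2.2.1 _ fun a =>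
      (q.2.open_source.eventually_mem hy).mono fun z hz => (congrFun (g5 z hz) a).symm] at e
  refine mul_right_cancel₀ (mul_ne_zero (pow_ne_zero m l2) (pow_ne_zero m (mul_ne_zero l5 l8))) ?_
  rw [mul_pow] at e ⊢
  linear_combination e

end Pg

open Pg in
theorem prg_of (hR : Rs.RES) (hG : GEN) (h1 : J1) (h2 : J2) (h3 : J3) (h4 : J4) (hD : DEN)
    (hC : CPB) : PRG := by
  intro w e₁ e₂ m a b B E₁ E₂ Q hB g₁ g₂ s₁ s₂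
  have H : Hy E₁ E₂ Q := ⟨h1, h2, h3, h4, hB, g₁, g₂, s₁, s₂⟩
  obtain ⟨P⟩ := exists_px hR g₁.hol g₂.hol (an_Og g₁ s₁) (an_Og g₂ s₂)
    fun x hx => s₁.sbm x hx.2 hx.1
  obtain ⟨t, K⟩ := H.exists_t P
  obtain ⟨Q', q1, q2⟩ := hG _ _ P.X B.W (gg P) _ P.G H.hol P.snc
  have hq : ∀ x ∈ off P.G, gg P x ∉ Q := fun x hx => ((P.mem x).1 hx).1.1
  have sub : Q ⊆ E₁.Q ∪ E₂.Q ∪ Q' := fun y hy => .inl (.inl (s₁.sub hy))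
  obtain ⟨c1, c2, -⟩ := hC _ P.X _ P.G P.snc
  refine ⟨⟨P.X, gg P, Fin P.r, P.G, t, Q, E₁.Q ∪ E₂.Q ∪ Q', fun x => E₁.ρ (P.p₁ x) * E₂.ρ (P.p₂ x)⟩,
    P.p₁, P.p₂, g₁, g₂, s₁, s₂, ⟨g₁.pos, ⟨hB.conn, hB.kah, lb_pow hB.lb _, hB.ch⟩,
      P.kah g₁.kah g₂.kah, H.hol, P.snc, s₁.thin, (g₁.thin.union g₂.thin).union q1, sub,
      fun y hy => q2 y fun a => hy (.inr a), fun y hy => ?_,
      fun i c x hx hc => H.thol K hx.2 hx.1.1 hc, fun i c c' x hx hc hc' => H.tchg K hx.2 hx.1.1 hc hc',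
      fun i j c x hx hx' hc => H.lchg K hx.2 hx.1.1 hx'.1.1 hc, fun i c x hi hc => ?_,
      fun i c x hi hx hc => ?_, (g₁.cont.comp P.h₁.cont).mul (g₂.cont.comp P.h₂.cont),
      c2 _ _ (c1 _ _ _ _ P.p₁ _ g₁.snc P.h₁ (fun x hx => ((P.mem x).1 hx).1.2) g₁.cpb)
        (c1 _ _ _ _ P.p₂ _ g₂.snc P.h₂ (fun x hx => ((P.mem x).1 hx).2.2) g₂.cpb)⟩,
    ⟨s₁.thin, Subset.rfl, sub, fun x hx _ => ?_⟩, rfl, fun y hy => .inl (.inl hy),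
    fun y hy => .inl (.inr hy), P.h₁, P.h₂, fun _ => rfl, P.g, fun x => (P.mem x).trans
      ⟨fun k => ⟨k.1.1, k.1.2, k.2.2⟩, fun k => ⟨⟨k.1, k.2.1⟩, by rw [P.g]; exact k.1, k.2.2⟩⟩,
    fun x₁ a₁ x₂ a₂ b c => P.one x₁ ⟨c, a₁⟩ x₂ ⟨b ▸ c, a₂⟩ b, fun _ => rfl,
    fun x hx => H.chart K hx⟩
  · obtain ⟨i, hi⟩ := hB.lb.cover y
    have n₁ : y ∉ E₁.Q := fun a => hy (.inl (.inl a))
    have n₂ : y ∉ E₂.Q := fun a => hy (.inl (.inr a))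
    obtain ⟨x₁, rfl⟩ := g₁.onto y n₁
    obtain ⟨x₂, k⟩ := g₂.onto _ n₂
    obtain ⟨y₁, a1, a2, -⟩ := (g₁.ne i _ x₁ hi n₁ (at_chart _)).exists
    obtain ⟨y₂, a3, a4, -⟩ := (g₂.ne i _ x₂ (by rwa [k]) (by rwa [k]) (at_chart _)).exists
    have n : E₁.g x₁ ∉ Q := fun a => n₁ (s₁.sub a)
    obtain ⟨x, rfl, -⟩ := (P.one y₁ ⟨by rwa [a1], a2.2⟩ y₂ ⟨by rwa [a3, k], a4.2⟩
      (by rw [a1, a3, k])).exists
    exact ⟨x, a1⟩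
  · obtain ⟨k, a, u, k1, k2⟩ := H.den K hi hc
    exact ⟨k, a, u, k1, k2.mono fun y a hy => a hy.2⟩
  · refine frequently_frequently_nhds.1 (((hD _ _ P.X B.W (gg P) _ P.G x H.hol P.snc
      (q2 _ fun a => hx (.inr a))).and_eventually (at_near hc)).mono fun y ⟨⟨a1, a2⟩, a3⟩ => ?_)
    refine (H.ne K a2 (i := i) (by rwa [a1]) (fun a => hx (.inl (.inl (a1 ▸ a : gg P x ∈ _))))
      (fun a => hx (.inl (.inr (a1 ▸ a : gg P x ∈ _)))) a3).mono fun z ⟨b1, b2, b3⟩ =>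
        ⟨b1.trans a1, ⟨⟨?_, hq z b2⟩, b2⟩, b3⟩
    exact (congrArg (· ∈ B.l.U i) (b1.trans a1)).mpr hi
  · obtain ⟨v₁, v₂, a₁, a₂, b₁, b₂⟩ := H.loc hx (at_chart _) (at_chart _) (at_chart _)
    exact ((h2 _ _ _ _ _ _ _ _ _ H.hol (at_chart _) (at_chart x) (hol_ap P.h₁ P.h₂ a₁ a₂)).1
      (H.ap_ne hx (at_chart _) (at_chart x) (at_chart _) (at_chart _) a₁ a₂ b₁ b₂)).1

end Vale.Agent.P281Z.Cv
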