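import Vale.Agent.P281Z.Cv.Defs
import Vale.Agent.P281Z.Pk.Nu

/-!
# P281Z, the cover of the fibre power: the measures on the fibres of a fibre product
-/

open scoped Manifold ContDiff Topology ENNReal
open Set Filter MeasureTheory Function
open Vale.Agent.P272.K Vale.Agent.P285.H281.FD
open Vale.Agent.P281Z.Hg (PC IsPC)
open Vale.Agent.P281Z.Pk Vale.Agent.P281Z.Pk.Mg

noncomputable section

namespace Vale.Agent.P281Z.Cv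

namespace Prm

variable {w e e₁ e₂ m a b : ℕ} {B : Bs w}

theorem aem {E : Et B e m} (h : E.Geo) (i : B.l.ι) {q : PC w e E.X.X B.W.X} (hq : IsPC E.g q)
    {y : B.W.X} (hy : y ∈ q.1.source) :
    AEMeasurable (fun z => fmm m (E.O i) (B.ch i) E.g (E.t i) q (q.2.symm (q.1 y, z)))
      (volume.restrict {z | (q.1 y, z) ∈ q.2.target}) :=
  ((h.meas i hq).comp_aemeasurable ((par_pc hq hy).cont.aemeasurable
    (par_pc hq hy).oT.measurableSet)).congr ((ae_restrict_mem (par_pc hq hy).oT.measurableSet).mono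
      fun _ hz => indicator_of_mem (q.2.map_target hz) _)

theorem app_symm (z₁ : Cm e₁) (z₂ : Cm e₂) :
    (Fin.appendHomeomorph (X := ℂ) e₁ e₂).symm (Fin.append z₁ z₂) = (z₁, z₂) :=
  (Fin.appendHomeomorph (X := ℂ) e₁ e₂).symm_apply_apply (z₁, z₂)

/-- the theorem of Fubini in the parametrizations -/
theorem core {X X₁ X₂ : Type} [TopologicalSpace X] [TopologicalSpace X₁] [TopologicalSpace X₂]
    [MeasurableSpace X] [MeasurableSpace X₁] [MeasurableSpace X₂] [BorelSpace X₁] [BorelSpace X₂]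
    {S V : Set X} {S₁ V₁ : Set X₁} {S₂ V₂ : Set X₂} {T : Set (Cm (e₁ + e₂))} {T₁ : Set (Cm e₁)}
    {T₂ : Set (Cm e₂)} {σ : _ → X} {σ₁ : _ → X₁} {σ₂ : _ → X₂} {τ : X → _} {τ₁ : X₁ → _}
    {τ₂ : X₂ → _} (π : Par S V T σ τ) (π₁ : Par S₁ V₁ T₁ σ₁ τ₁) (π₂ : Par S₂ V₂ T₂ σ₂ τ₂)
    {ν : Measure X} {ν₁ : Measure X₁} {ν₂ : Measure X₂} [SFinite ν₂] {D : X → ℝ≥0∞}
    {D₁ : X₁ → ℝ≥0∞} {D₂ : X₂ → ℝ≥0∞}
    (n : ∀ f, Measurable f → (∀ x ∉ V, f x = 0) → ∫⁻ x, f x ∂ν = ∫⁻ z in T, f (σ z) * D (σ z))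
    (n₁ : ∀ f, Measurable f → (∀ x ∉ V₁, f x = 0) →
      ∫⁻ x, f x ∂ν₁ = ∫⁻ z in T₁, f (σ₁ z) * D₁ (σ₁ z))
    (n₂ : ∀ f, Measurable f → (∀ x ∉ V₂, f x = 0) →
      ∫⁻ x, f x ∂ν₂ = ∫⁻ z in T₂, f (σ₂ z) * D₂ (σ₂ z))
    (m₁ : AEMeasurable (fun z => D₁ (σ₁ z)) (volume.restrict T₁))
    (m₂ : AEMeasurable (fun z => D₂ (σ₂ z)) (volume.restrict T₂)) {p₁ : X → X₁} {p₂ : X → X₂}
    (hP : Measurable fun x => (p₁ x, p₂ x))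
    (hq : ∀ x ∈ S, x ∈ V → (p₁ x ∈ S₁ ∧ p₁ x ∈ V₁) ∧ (p₂ x ∈ S₂ ∧ p₂ x ∈ V₂) ∧
      τ x = Fin.append (τ₁ (p₁ x)) (τ₂ (p₂ x)) ∧ D x = D₂ (p₂ x) * D₁ (p₁ x))
    (hs : ∀ x₁ ∈ S₁, ∀ x₂ ∈ S₂, D₁ x₁ ≠ 0 → D₂ x₂ ≠ 0 → ∃ x ∈ S, p₁ x = x₁ ∧ p₂ x = x₂)
    {f : X₁ × X₂ → ℝ≥0∞} (hf : Measurable f) (h0 : ∀ x ∉ V, f (p₁ x, p₂ x) = 0)
    (h1 : ∀ x₁ ∉ V₁, ∀ x₂, f (x₁, x₂) = 0) (h2 : ∀ x₁, ∀ x₂ ∉ V₂, f (x₁, x₂) = 0) :
    ∫⁻ x, f (p₁ x, p₂ x) ∂ν = ∫⁻ v, f v ∂ν₁.prod ν₂ := by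
  have a₁ := π₁.cont.aemeasurable (μ := volume) π₁.oT.measurableSet
  have a₂ := π₂.cont.aemeasurable (μ := volume) π₂.oT.measurableSet
  have hT := (π₁.oT.prod π₂.oT).measurableSet
  have hA := (Fin.appendHomeomorph (X := ℂ) e₁ e₂).symm.measurableEmbedding
  have hH : AEMeasurable (fun z : Cm e₁ × Cm e₂ => f (σ₁ z.1, σ₂ z.2) * D₂ (σ₂ z.2) * D₁ (σ₁ z.1))
      ((volume.restrict T₁).prod (volume.restrict T₂)) :=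
    ((hf.comp_aemeasurable (a₁.comp_fst.prodMk a₂.comp_snd)).mul m₂.comp_snd).mul m₁.comp_fst
  rw [n (fun x => f (p₁ x, p₂ x)) (hf.comp hP) h0, lintegral_prod _ hf.aemeasurable,
    n₁ _ hf.lintegral_prod_right' fun x k => (lintegral_congr (h1 x k)).trans lintegral_zero]
  refine Eq.trans ?_ ((lintegral_prod _ hH).trans (lintegral_congr fun z₁ => ?_))
  · rw [Measure.prod_restrict, ← Measure.volume_eq_prod,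
      ← apL_pres.setLIntegral_comp_preimage_emb hA]
    have key : ∀ z ∈ T, (Fin.appendHomeomorph (X := ℂ) e₁ e₂).symm z =
        (τ₁ (p₁ (σ z)), τ₂ (p₂ (σ z))) := fun z hz => by
      obtain ⟨b1, b2, b3⟩ := π.mem z hz
      rw [← app_symm, ← (hq _ b1 b2).2.2.1, b3]
    refine Eq.trans (setLIntegral_congr_fun π.oT.measurableSet fun z hz => ?_)
      (lint_sub (hA.measurable hT) π.oT.measurableSet (fun z hz => ?_) fun z hz hz' => ?_).symm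
    · obtain ⟨b1, b2, -⟩ := π.mem z hz
      obtain ⟨b3, b4, -, b5⟩ := hq _ b1 b2
      simp only [key z hz, (π₁.inv _ b3.1 b3.2).2, (π₂.inv _ b4.1 b4.2).2, b5, mul_assoc]
    · obtain ⟨b1, b2, -⟩ := π.mem z hz
      obtain ⟨b3, b4, -⟩ := hq _ b1 b2
      rw [mem_preimage, key z hz]
      exact ⟨(π₁.inv _ b3.1 b3.2).1, (π₂.inv _ b4.1 b4.2).1⟩
    · by_contra k
      obtain ⟨k1, k3⟩ := mul_ne_zero_iff.1 k
      obtain ⟨k1, k2⟩ := mul_ne_zero_iff.1 k1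
      obtain ⟨b1, -, b2⟩ := π₁.mem _ hz.1
      obtain ⟨b3, -, b4⟩ := π₂.mem _ hz.2
      obtain ⟨x, b0, b5, b6⟩ := hs _ b1 _ b3 k3 k2
      have b7 : x ∈ V := by_contra fun l => k1 (b5 ▸ b6 ▸ h0 x l)
      have b8 := (π.inv x b0 b7).1
      rw [(hq x b0 b7).2.2.1, b5, b6, b2, b4] at b8
      exact hz' ((Fin.appendHomeomorph (X := ℂ) e₁ e₂).apply_symm_apply z ▸ b8)
  · rw [n₂ (fun x => f (σ₁ z₁, x)) (hf.comp measurable_prodMk_left) (h2 _)]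
    exact lintegral_mul_const'' (f := fun z => f (σ₁ z₁, σ₂ z) * D₂ (σ₂ z)) (D₁ (σ₁ z₁))
      ((hf.comp_aemeasurable (aemeasurable_const.prodMk a₂)).mul m₂)

variable {E₁ : Et (B.pow a) e₁ m} {E₂ : Et (B.pow b) e₂ m} {Q : Set B.W.X}
  {E : Et (B.pow (a + b)) (e₁ + e₂) m} {p₁ : E.X.X → E₁.X.X} {p₂ : E.X.X → E₂.X.X}
  (h : Pr E₁ E₂ Q E p₁ p₂) {i : B.l.ι} {y : B.W.X} (hy : y ∈ B.l.U i) (hQ : y ∉ E.Q)

include h hy hQ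

theorem mem {x : E.X.X} (hx : E.g x = y) (hG : x ∈ off E.G) :
    x ∈ E.O i ∧ p₁ x ∈ E₁.O i ∧ p₂ x ∈ E₂.O i := by
  subst hx
  obtain ⟨-, k1, k2⟩ := (h.mem x).1 hG
  have l1 : E₁.g (p₁ x) ∈ B.l.U i \ E₁.Q₀ := by
    rw [h.g₁]
    exact ⟨hy, fun k => hQ (h.s₁ (h.geo₁.sub k))⟩
  have l2 : E₂.g (p₂ x) ∈ B.l.U i \ E₂.Q₀ := by
    rw [h.g₂]
    exact ⟨hy, fun k => hQ (h.s₂ (h.geo₂.sub k))⟩
  exact ⟨⟨⟨hy, fun k => hQ (h.geo.sub k)⟩, hG⟩, ⟨l1, k1⟩, l2, k2⟩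

/-- the local statement -/
theorem loc {x₁ : E₁.X.X} {x₂ : E₂.X.X} (k₁ : x₁ ∈ E₁.g ⁻¹' {y} ∩ E₁.O i)
    (k₂ : x₂ ∈ E₂.g ⁻¹' {y} ∩ E₂.O i) : ∃ V : Set (E₁.X.X × E₂.X.X), IsOpen V ∧ (x₁, x₂) ∈ V ∧
      ∀ f : E₁.X.X × E₂.X.X → ℝ≥0∞, Measurable f → (∀ v ∉ V, f v = 0) →
        ∫⁻ x, f (p₁ x, p₂ x) ∂E.ν i y = ∫⁻ v, f v ∂(E₁.ν i y).prod (E₂.ν i y) := by
  have hQ' : y ∉ Q := fun k => hQ (h.sb.sub k)
  have e₁y : E₁.g x₁ = y := k₁.1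
  have e₂y : E₂.g x₂ = y := k₂.1
  obtain ⟨x, ⟨rfl, rfl⟩, hu⟩ := h.one x₁ k₁.2.2 x₂ k₂.2.2 (e₁y.trans e₂y.symm) (e₁y ▸ hQ')
  have ey : E.g x = y := (h.g₁ x).symm.trans e₁y
  obtain ⟨q, q₁, q₂, c, c₁, c₂, d₁, d₂, hx, hq⟩ :=
    h.chart x ((h.mem x).2 ⟨ey ▸ hQ', k₁.2.2, k₂.2.2⟩)
  have hP : Continuous fun x => (p₁ x, p₂ x) := h.h₁.cont.prodMk h.h₂.cont
  have yq : y ∈ q.1.source := ey ▸ (pc_at c hx).2
  have yq₁ : y ∈ q₁.1.source := d₁ ▸ yq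
  have yq₂ : y ∈ q₂.1.source := d₂ ▸ yq
  obtain ⟨n₂, s₂⟩ := nu _ _ _ _ E₂ h.geo₂ i y hy fun k => hQ (h.s₂ k)
  have n₁ := (nu _ _ _ _ E₁ h.geo₁ i y hy fun k => hQ (h.s₁ k)).1
  have n := (nu _ _ _ _ E h.geo i y hy hQ).1
  refine ⟨((fun x => (p₁ x, p₂ x)) '' q.2.sourceᶜ)ᶜ ∩ q₁.2.source ×ˢ q₂.2.source,
    (q.2.open_source.isClosed_compl.isCompact.image hP).isClosed.isOpen_compl.inter
      (q₁.2.open_source.prod q₂.2.open_source),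
    ⟨fun ⟨x', k, k'⟩ => k (hu x' (Prod.ext_iff.1 k') ▸ hx), (hq x hx).2.1, (hq x hx).2.2.1⟩,
    fun f hf h0 => core (par_pc c yq) (par_pc c₁ yq₁) (par_pc c₂ yq₂) (n.2 q c yq)
      (n₁.2 q₁ c₁ yq₁) (n₂.2 q₂ c₂ yq₂) (aem h.geo₁ i c₁ yq₁) (aem h.geo₂ i c₂ yq₂) hP.measurable
      (fun x' b2 b1 => ?_) (fun y₁ b1 y₂ b3 k3 k2 => ?_) hf
      (fun x' k => h0 _ fun k' => k'.1 ⟨x', k, rfl⟩) (fun _ k _ => h0 _ fun k' => k k'.2.1)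
      fun _ _ k => h0 _ fun k' => k k'.2.2⟩
  · obtain ⟨b5, b6, b7, b9, b8⟩ := hq x' b1
    obtain ⟨o, o₁, o₂⟩ := mem h hy hQ b2 b5
    refine ⟨⟨(h.g₁ x').trans b2, b6⟩, ⟨(h.g₂ x').trans b2, b7⟩, b9, (indicator_of_mem o _).trans
      (Eq.trans ?_ (congrArg₂ (· * ·) (indicator_of_mem o₂ _) (indicator_of_mem o₁ _)).symm)⟩
    refine (congrArg (fun s => ‖s‖ₑ ^ (2 / m : ℝ)) (b8 i ((show E.g x' = y from b2) ▸ hy))).trans ?_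
    rw [enorm_mul, ENNReal.mul_rpow_of_nonneg _ _ (by positivity), mul_comm]
  · obtain ⟨x', ⟨b5, b6⟩, -⟩ := h.one _ (mem_of_indicator_ne_zero k3).2 _
      (mem_of_indicator_ne_zero k2).2 (Eq.trans b1 (Eq.symm b3))
      fun l => hQ' ((show E₁.g y₁ = y from b1) ▸ l)
    exact ⟨x', (h.g₁ x').symm.trans (b5 ▸ b1), b5, b6⟩

theorem map_eq : (E.ν i y).map (fun x => (p₁ x, p₂ x)) = (E₁.ν i y).prod (E₂.ν i y) := by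
  have hP : Measurable fun x => (p₁ x, p₂ x) := (h.h₁.cont.prodMk h.h₂.cont).measurable
  have s₂ := (nu _ _ _ _ E₂ h.geo₂ i y hy fun k => hQ (h.s₂ k)).2
  choose V a1 a2 a3 using fun v : (E₁.g ⁻¹' {y} ∩ E₁.O i) ×ˢ (E₂.g ⁻¹' {y} ∩ E₂.O i) =>
    loc h hy hQ v.2.1 v.2.2
  refine uniq a1 (fun v hv => mem_iUnion.2 ⟨⟨v, hv⟩, a2 _⟩) ?_ ?_ fun v f hf h0 => ?_
  · rw [Measure.map_apply hP (((isClosed_singleton.preimage h.geo₁.hol.cont).measurableSet.inter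
      (h.geo₁.oO i).measurableSet).prod ((isClosed_singleton.preimage
        h.geo₂.hol.cont).measurableSet.inter (h.geo₂.oO i).measurableSet)).compl]
    refine measure_mono_null (t := (E.g ⁻¹' {y} ∩ E.O i)ᶜ) (fun x hx k => hx ?_)
      (h.geo.nu (i := i) hy hQ).2
    obtain ⟨-, o₁, o₂⟩ := mem h hy hQ k.1 k.2.2
    exact ⟨⟨(h.g₁ x).trans k.1, o₁⟩, (h.g₂ x).trans k.1, o₂⟩
  · rw [compl_prod_eq_union]
    refine measure_union_null ?_ ?_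
    · rw [Measure.prod_prod, (h.geo₁.nu (i := i) hy fun k => hQ (h.s₁ k)).2, zero_mul]
    · rw [Measure.prod_prod, (h.geo₂.nu (i := i) hy fun k => hQ (h.s₂ k)).2, mul_zero]
  · rw [lintegral_map hf hP]
    exact a3 v f hf h0

end Prm

/-- **PRM** -/
theorem prm_of (hR : RHO0) : PRM := fun w e₁ e₂ m a b B E₁ E₂ Q E p₁ p₂ h i y hy hQ => by
  refine ⟨Prm.map_eq h hy hQ, fun ε hε => ?_⟩
  obtain ⟨r₁, -, -, m₁⟩ := hR _ _ _ _ E₁ h.geo₁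
  obtain ⟨r₂, -, -, m₂⟩ := hR _ _ _ _ E₂ h.geo₂
  have s₂ := (nu _ _ _ _ E₂ h.geo₂ i y hy fun k => hQ (h.s₂ k)).2
  refine Eq.trans ?_ (lintegral_prod_mul (m₁ ε hε).aemeasurable (m₂ ε hε).aemeasurable)
  rw [← Prm.map_eq h hy hQ]
  refine Eq.trans (lintegral_congr fun x => ?_) (lintegral_map (((m₁ ε hε).comp measurable_fst).mul
    ((m₂ ε hε).comp measurable_snd)) (h.h₁.cont.prodMk h.h₂.cont).measurable).symm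
  simp only [Et.wt, comp_apply, Pi.mul_apply]
  rw [h.rho, Real.mul_rpow (r₁ _) (r₂ _), ENNReal.ofReal_mul (Real.rpow_nonneg (r₁ _) _)]

end Vale.Agent.P281Z.Cv
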