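import Vale.Agent.P281Z.Cv.Defs
import Vale.Agent.P281Z.Pk.Null
import Vale.Agent.P281Z.Pk.Rl

/-!
# P281Z, the cover of the fibre power: square integrable functions on a fibre product
-/

open scoped Manifold ContDiff Topology ENNReal
open Set Filter MeasureTheory
open Vale.Agent.P272.K Vale.Agent.P285.H281.FD
open Vale.Agent.P277Z (Hol at_chart)
open Vale.Agent.P281Z.Hg (PC IsPC)
open Vale.Agent.P281Z.Pk

noncomputable section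

namespace Vale.Agent.P281Z.Cv

namespace Pru

section one

variable {w e m : ℕ} {B : Bs w} (E : Et B e m) (i : B.l.ι) (y : B.W.X)

/-- the points where `t i` is holomorphic and not zero -/
def N : Set E.X.X := {x | x ∈ E.O i ∧ E.t i (chartAt (Cm (w + e)) x) x ≠ 0}

/-- the same in a fibre -/
def T : Set E.X.X := N E i ∩ E.g ⁻¹' {y}

variable {E i y} (hE : E.Geo) (hy : y ∈ B.l.U i) (hQ : y ∉ E.Q)
include hE

theorem meas : MeasurableSet (T E i y) :=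
  (bigo _ _ _ _ E hE i).1.measurableSet.inter
    (isClosed_singleton.preimage hE.hol.cont).measurableSet

include hy hQ

theorem memO {x : E.X.X} (hx : E.g x = y) (h : x ∈ off E.G) : x ∈ E.O i :=
  ⟨by rw [mem_preimage, hx]; exact ⟨hy, fun k => hQ (hE.sub k)⟩, h⟩

theorem ae_T (hN : NU) : ∀ᵐ x ∂E.ν i y, x ∈ T E i y :=
  Eventually.and (nul_of hN _ _ _ _ E hE i y hy hQ _ (bigo _ _ _ _ E hE i).1
    ((bigo _ _ _ _ E hE i).2 y hy hQ)) (hN _ _ _ _ E hE i y hy hQ).1.1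

theorem fr_T {x : E.X.X} (hx : E.g x = y) : ∃ᶠ x' in 𝓝 x, x' ∈ T E i y :=
  ((hE.ne i _ x (hx ▸ hy) (hx ▸ hQ) (at_chart x)).and_eventually
    (at_near (at_chart (n := w + e) x))).mono fun _ k =>
      ⟨⟨k.1.2.1, hE.ne_of k.1.2.1 k.2 k.1.2.2⟩, k.1.1.trans hx⟩

theorem fr_ae (hP : POS) {x : E.X.X} (hx : x ∈ T E i y) {P : E.X.X → Prop}
    (h : ∀ᵐ x ∂E.ν i y, P x) : ∃ᶠ x' in 𝓝 x, P x' := fun k =>
  (hP _ _ _ _ E hE i y hy hQ).2 x hx.1.1 hx.2 hx.1.2 _ k h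

omit hy hQ in
theorem l2_of (hR : RHO0) {φ : E.X.X → ℂ}
    (h : ∀ n : ℕ, ∫⁻ x, ‖φ x‖ₑ ^ 2 * E.wt (1 / (n + 1 : ℝ)) x ∂E.ν i y < ⊤) : E.L2 i y φ := by
  intro ε hε
  obtain ⟨n, hn⟩ := exists_nat_one_div_lt hε
  obtain ⟨h1, -, ⟨K, h2⟩, -⟩ := hR _ _ _ _ E hE
  refine (lintegral_mono (g := fun x => ENNReal.ofReal (K ^ (ε - 1 / (n + 1 : ℝ))) *
    (‖φ x‖ₑ ^ 2 * E.wt (1 / (n + 1 : ℝ)) x)) fun x => ?_).trans_lt ?_
  · have h3 : E.ρ x ^ ε = E.ρ x ^ (ε - 1 / (n + 1 : ℝ)) * E.ρ x ^ (1 / (n + 1 : ℝ)) := by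
      rw [← Real.rpow_add_of_nonneg (h1 x) (sub_pos.2 hn).le (by positivity), sub_add_cancel]
    beta_reduce
    rw [mul_left_comm, Et.wt, Et.wt, h3, ENNReal.ofReal_mul (Real.rpow_nonneg (h1 x) _)]
    gcongr
    exacts [h1 x, h2 x]
  · rw [lintegral_const_mul' _ _ ENNReal.ofReal_ne_top]
    exact ENNReal.mul_lt_top ENNReal.ofReal_lt_top (h n)

omit hE in
/-- constancy in the second variable -/
theorem half (hN : NU) (hR : RHO0) (hE : E.Ok) {A : Type} [MeasurableSpace A] {μ : Measure A}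
    {S : Set A} (hS : ∀ᵐ a ∂μ, a ∈ S) {v : ℝ → A → ℝ≥0∞} (hv : ∀ ε, 0 < ε → ∀ a ∈ S, v ε a ≠ 0 ∧
      v ε a ≠ ⊤) {ψ : A × E.X.X → ℂ} (hm : ∀ ε, 0 < ε → AEMeasurable
        (fun z => ‖ψ z‖ₑ ^ 2 * (v ε z.1 * E.wt ε z.2)) (μ.prod (E.ν i y)))
    (hi : ∀ ε, 0 < ε → ∫⁻ z, ‖ψ z‖ₑ ^ 2 * (v ε z.1 * E.wt ε z.2) ∂μ.prod (E.ν i y) < ⊤)
    (hf : ∀ a ∈ S, ∀ x ∈ T E i y, FH E.g (fun x => ψ (a, x)) x) :
    ∀ᵐ a ∂μ, ∃ c, ∀ x ∈ T E i y, ψ (a, x) = c := by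
  have := (hN _ _ _ _ E hE.toGeo i y hy hQ).2
  have p : ∀ n : ℕ, 0 < 1 / (n + 1 : ℝ) := fun n => by positivity
  filter_upwards [hS, ae_all_iff.2 fun n : ℕ => ae_lt_top' (hm _ (p n)).lintegral_prod_right'
    (lintegral_prod _ (hm _ (p n)) ▸ hi _ (p n)).ne] with a h1 h2
  obtain ⟨b1, b2⟩ := bigo _ _ _ _ E hE.toGeo i
  obtain ⟨c, hc⟩ := hE.un i y hy hQ _ b1 (fun _ k => k.1) (b2 y hy hQ) (fun x => ψ (a, x))
    (fun x k k' => hf a h1 x ⟨k, k'⟩) (l2_of hE.toGeo hR fun n => by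
      have h3 := h2 n
      simp only [mul_left_comm _ (v _ a)] at h3
      rw [lintegral_const_mul' _ _ (hv _ (p n) a h1).2] at h3
      exact ENNReal.lt_top_of_mul_ne_top_right h3.ne (hv _ (p n) a h1).1)
  exact ⟨c, fun x k => hc x k.1 k.2⟩

omit hy hQ in
theorem wt_ne (hR : RHO0) (ε : ℝ) (_ : 0 < ε) (x : E.X.X) (hx : x ∈ T E i y) :
    E.wt ε x ≠ 0 ∧ E.wt ε x ≠ ⊤ :=
  ⟨(ENNReal.ofReal_pos.2 (Real.rpow_pos_of_pos ((hR _ _ _ _ E hE).2.1 x hx.1.1.2) _)).ne',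
    ENNReal.ofReal_ne_top⟩

end one

theorem an_app {k l : ℕ} (z : Cm k × Cm l) :
    AnalyticAt ℂ (fun z : Cm k × Cm l => (Fin.append z.1 z.2 : Cm (k + l))) z :=
  (Mg.apL k l).analyticAt z

theorem app_inj {k l : ℕ} {a a' : Cm k} {b b' : Cm l}
    (h : (Fin.append a b : Cm (k + l)) = Fin.append a' b') : a = a' ∧ b = b' :=
  Prod.ext_iff.1 ((Fin.appendEquiv k l).injective (a₁ := (a, b)) (a₂ := (a', b')) h)

variable {w e₁ e₂ m a b : ℕ} {B : Bs w} {E₁ : Et (B.pow a) e₁ m} {E₂ : Et (B.pow b) e₂ m}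
  {Q : Set B.W.X} {E : Et (B.pow (a + b)) (e₁ + e₂) m} {p₁ : E.X.X → E₁.X.X}
  {p₂ : E.X.X → E₂.X.X} (P : Pr E₁ E₂ Q E p₁ p₂) {i : B.l.ι} {y : B.W.X} (hy : y ∈ B.l.U i)
  (hQ : y ∉ E.Q)
include P hy hQ

theorem mem_iff {x : E.X.X} (hx : E.g x = y) :
    x ∈ T E i y ↔ p₁ x ∈ T E₁ i y ∧ p₂ x ∈ T E₂ i y := by
  have h1 := (P.g₁ x).trans hx
  have h2 := (P.g₂ x).trans hx
  have key : x ∈ off E.G → (E.t i (chartAt _ x) x ≠ 0 ↔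
      E₁.t i (chartAt _ (p₁ x)) (p₁ x) ≠ 0 ∧ E₂.t i (chartAt _ (p₂ x)) (p₂ x) ≠ 0) := fun h => by
    obtain ⟨q, q₁, q₂, a0, a1, a2, -, -, a3, a4⟩ := P.chart x h
    obtain ⟨-, b1, b2, -, b3⟩ := a4 x a3
    have hχ : At (B.ch i) y := P.geo.base.ch i y hy
    rw [← rl_ne (m := m) a0 a3 (hx.symm ▸ hχ), ← rl_ne (m := m) a1 b1 (h1.symm ▸ hχ),
      ← rl_ne (m := m) a2 b2 (h2.symm ▸ hχ), b3 i (hx.symm ▸ hy), mul_ne_zero_iff]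
  constructor
  · rintro ⟨⟨c1, c2⟩, -⟩
    obtain ⟨-, d1, d2⟩ := (P.mem x).1 c1.2
    exact ⟨⟨⟨memO P.geo₁ hy (fun k => hQ (P.s₁ k)) h1 d1, ((key c1.2).1 c2).1⟩, h1⟩,
      ⟨memO P.geo₂ hy (fun k => hQ (P.s₂ k)) h2 d2, ((key c1.2).1 c2).2⟩, h2⟩
  · rintro ⟨⟨⟨c1, c2⟩, -⟩, ⟨d1, d2⟩, -⟩
    have h := (P.mem x).2 ⟨fun k => hQ (P.sb.sub (hx ▸ k)), c1.2, d1.2⟩
    exact ⟨⟨memO P.geo hy hQ hx h, (key h).2 ⟨c2, d2⟩⟩, hx⟩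

omit hy hQ in
theorem uniq {x x' : E.X.X} (h : x ∈ off E.G) (e : (p₁ x', p₂ x') = (p₁ x, p₂ x)) : x' = x :=
  let ⟨a0, a1, a2⟩ := (P.mem x).1 h
  (P.one _ a1 _ a2 ((P.g₁ x).trans (P.g₂ x).symm) ((P.g₁ x).symm ▸ a0)).unique
    (Prod.ext_iff.1 e) ⟨rfl, rfl⟩

theorem surj {z : E₁.X.X × E₂.X.X} (hz : z ∈ T E₁ i y ×ˢ T E₂ i y) :
    ∃ x ∈ T E i y, (p₁ x, p₂ x) = z := by
  have h1 : E₁.g z.1 = y := hz.1.2
  obtain ⟨x, ⟨a1, a2⟩, -⟩ := P.one _ hz.1.1.1.2 _ hz.2.1.1.2 (h1.trans hz.2.2.symm)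
    fun k => hQ (P.sb.sub (h1 ▸ k))
  exact ⟨x, (mem_iff P hy hQ (by rw [← P.g₁, a1, h1])).2 ⟨a1.symm ▸ hz.1, a2.symm ▸ hz.2⟩,
    Prod.ext a1 a2⟩

variable {ψ : E₁.X.X × E₂.X.X → ℂ} {φ : E.X.X → ℂ}
  (hψ : ∀ x ∈ off E.G, E.g x = y → ψ (p₁ x, p₂ x) = φ x) (hφ : ∀ x ∈ T E i y, FH E.g φ x)
include hψ hφ

theorem cont (hF : FHT) : ContinuousOn ψ (T E₁ i y ×ˢ T E₂ i y) := fun z hz => by
  obtain ⟨x, hx, rfl⟩ := surj P hy hQ hz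
  have h1 := (hF _ _ _ _ E.g φ x P.geo.hol).2.2.1
    ((P.geo.reg y hQ).sbm P.geo.hol P.geo.snc hx.2) (hφ x hx)
  rw [ContinuousWithinAt, hψ x hx.1.1.2 hx.2]
  refine tendsto_def.2 fun U hU => ?_
  have h2 := (P.h₁.cont.prodMk P.h₂.cont).isClosedMap.eventually_nhds_fiber (p₁ x, p₂ x)
    (p := fun x' => E.g x' = E.g x → φ x' ∈ U) fun x' e => by
      rw [uniq P hx.1.1.2 e]
      exact eventually_nhdsWithin_iff.1 (h1 hU)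
  filter_upwards [nhdsWithin_le_nhds h2, self_mem_nhdsWithin] with z' k k'
  obtain ⟨x', hx', rfl⟩ := surj P hy hQ k'
  rw [mem_preimage, hψ x' hx'.1.1.2 hx'.2]
  exact k x' rfl (Eq.trans hx'.2 (Eq.symm hx.2))

theorem fh (hF : FHT) {z : E₁.X.X × E₂.X.X} (hz : z ∈ T E₁ i y ×ˢ T E₂ i y) :
    FH E₁.g (fun x => ψ (x, z.2)) z.1 ∧ FH E₂.g (fun x => ψ (z.1, x)) z.2 := by
  obtain ⟨x, hx, rfl⟩ := surj P hy hQ hz
  obtain ⟨q, q₁, q₂, a0, a1, a2, a3, a4, a5, a6⟩ := P.chart x hx.1.1.2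
  obtain ⟨-, b1, b2, b3, -⟩ := a6 x a5
  have c0 := pc_eq a0 a5 hx.2
  have c1 := pc_eq a1 b1 hz.1.2
  have c2 := pc_eq a2 b2 hz.2.2
  have hy' : y ∈ q.1.source := (show E.g x = y from hx.2) ▸ (a0.2.fst x a5).1
  have h1 : AnalyticAt ℂ (fun z : Cm e₁ × Cm e₂ => φ (q.2.symm (q.1 y, Fin.append z.1 z.2)))
      ((q₁.2 (p₁ x)).2, (q₂.2 (p₂ x)).2) := by
    have := hφ x hx q a0 a5
    rw [← c0] at this
    exact this.comp_of_eq (an_app _) b3.symm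
  have h2 : AnalyticAt ℂ (fun z : Cm e₁ × Cm e₂ => ψ (q₁.2.symm (q₁.1 y, z.1),
      q₂.2.symm (q₂.1 y, z.2))) ((q₁.2 (p₁ x)).2, (q₂.2 (p₂ x)).2) := by
    refine h1.congr ?_
    have : ∀ᶠ z : Cm e₁ × Cm e₂ in 𝓝 ((q₁.2 (p₁ x)).2, (q₂.2 (p₂ x)).2),
        (q.1 y, (Fin.append z.1 z.2 : Cm (e₁ + e₂))) ∈ q.2.target :=
      (continuousAt_const.prodMk (an_app _).continuousAt).eventually
        (q.2.open_target.mem_nhds (by beta_reduce; rw [← b3, c0]; exact q.2.map_source a5))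
    filter_upwards [this] with z k
    obtain ⟨d0, d1, d2, d3, -⟩ := a6 _ (q.2.map_target k)
    have d4 := pc_fib a0 hy' k
    rw [q.2.right_inv k] at d3
    obtain ⟨d5, d6⟩ := app_inj d3
    have d7 := pc_eq a1 d1 ((P.g₁ _).trans d4)
    have d8 := pc_eq a2 d2 ((P.g₂ _).trans d4)
    rw [← d5] at d7
    rw [← d6] at d8
    rw [← hψ _ d0 d4, d7, d8, q₁.2.left_inv d1, q₂.2.left_inv d2]
  refine ⟨(hF _ _ _ _ E₁.g _ _ P.geo₁.hol).2.1 q₁ a1 b1 ?_,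
    (hF _ _ _ _ E₂.g _ _ P.geo₂.hol).2.1 q₂ a2 b2 ?_⟩
  · have := h2.comp_of_eq (f := fun z => (z, (q₂.2 (p₂ x)).2))
      (analyticAt_id.prod analyticAt_const) rfl
    simp only [Function.comp_def, c2, q₂.2.left_inv b2] at this
    rwa [← c1]
  · have := h2.comp_of_eq (f := fun z => ((q₁.2 (p₁ x)).2, z))
      (analyticAt_const.prod analyticAt_id) rfl
    simp only [Function.comp_def, c1, q₁.2.left_inv b1] at this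
    rwa [← c2]

end Pru

open Pru in
theorem pru_of (hN : NU) (hL : L2X) (hM : PRM) (hP : POS) (hR : RHO0) (hF : FHT) : PRU := by
  intro w e₁ e₂ m a b B E₁ E₂ Q E p₁ p₂ P h₁ h₂ i y hy hQ O hO hO' hB φ hφ h2
  have q₁ : y ∉ E₁.Q := fun k => hQ (P.s₁ k)
  have q₂ : y ∉ E₂.Q := fun k => hQ (P.s₂ k)
  have := (hN _ _ _ _ E₁ P.geo₁ i y hy q₁).2
  have := (hN _ _ _ _ E₂ P.geo₂ i y hy q₂).2
  obtain ⟨φ', f1, f2⟩ := hL _ _ _ _ E P.geo i y hy hQ O hO hO' hB φ hφ h2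
  replace f1 : ∀ x ∈ T E i y, FH E.g φ' x := fun x k => f1 x k.1.1 k.2 k.1.2
  have : Nonempty E.X.X := (P.geo.onto y hQ).elim fun x _ => ⟨x⟩
  set ψ := fun z => φ' (Function.invFun (fun x => (p₁ x, p₂ x)) z)
  have hψ : ∀ x ∈ off E.G, E.g x = y → ψ (p₁ x, p₂ x) = φ' x := fun x k _ => congrArg φ'
    (uniq P k (Function.invFun_eq (f := fun x => (p₁ x, p₂ x)) ⟨x, rfl⟩))
  have c := cont P hy hQ hψ f1 hF
  have t₁ := ae_T P.geo₁ hy q₁ hN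
  have t₂ := ae_T P.geo₂ hy q₂ hN
  obtain ⟨r₁, -, -, r₁'⟩ := hR _ _ _ _ E₁ P.geo₁
  obtain ⟨r₂, -, -, r₂'⟩ := hR _ _ _ _ E₂ P.geo₂
  have m1 : AEMeasurable ψ ((E₁.ν i y).prod (E₂.ν i y)) := by
    have k : MeasurableSet (T E₁ i y ×ˢ T E₂ i y) := (meas P.geo₁).prod (meas P.geo₂)
    rw [← Measure.restrict_eq_self_of_ae_mem ((Measure.ae_prod_mem_iff_ae_ae_mem k).2
      (t₁.mono fun _ a => t₂.mono fun _ b => ⟨a, b⟩))]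
    exact c.aemeasurable k
  have m2 : ∀ ε, 0 < ε → AEMeasurable (fun z => ‖ψ z‖ₑ ^ 2 * (E₁.wt ε z.1 * E₂.wt ε z.2))
      ((E₁.ν i y).prod (E₂.ν i y)) := fun ε hε => (m1.enorm.pow_const 2).mul
    (((r₁' ε hε.le).comp measurable_fst).mul ((r₂' ε hε.le).comp measurable_snd)).aemeasurable
  have m3 : ∀ ε, 0 < ε → ∫⁻ z, ‖ψ z‖ₑ ^ 2 * (E₁.wt ε z.1 * E₂.wt ε z.2)
      ∂(E₁.ν i y).prod (E₂.ν i y) < ⊤ := fun ε hε => by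
    have k := m2 ε hε
    rw [← (hM _ _ _ _ _ _ B E₁ E₂ Q E p₁ p₂ P i y hy hQ).1] at k ⊢
    rw [lintegral_map' k (P.h₁.cont.prodMk P.h₂.cont).measurable.aemeasurable]
    refine (lintegral_congr_ae ?_).trans_lt (h2 ε hε)
    filter_upwards [ae_T P.geo hy hQ hN, (nul_of hN _ _ _ _ E P.geo i y hy hQ O hO hB :
      ∀ᵐ x ∂E.ν i y, x ∈ O)] with x k1 k2
    rw [hψ x k1.1.1.2 k1.2, f2 x k2 k1.2, Et.wt, Et.wt, Et.wt, P.rho,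
      Real.mul_rpow (r₁ _) (r₂ _), ENNReal.ofReal_mul (Real.rpow_nonneg (r₁ _) _)]
  have g₂ := half (E := E₂) hy q₂ hN hR h₂ t₁ (wt_ne P.geo₁ hR) (ψ := ψ) m2 m3 fun a k x k' =>
    (fh P hy hQ hψ f1 hF (z := (a, x)) ⟨k, k'⟩).2
  have g₁ := half (E := E₁) hy q₁ hN hR h₁ t₂ (wt_ne P.geo₂ hR) (ψ := fun z => ψ z.swap)
    (fun ε hε => by
      simpa only [mul_comm (E₁.wt _ _), Prod.fst_swap, Prod.snd_swap] using (m2 ε hε).prod_swap)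
    (fun ε hε => by simpa only [mul_comm (E₁.wt _ _), Prod.fst_swap, Prod.snd_swap] using
      (lintegral_prod_swap _).trans_lt (m3 ε hε))
    fun a k x k' => (fh P hy hQ hψ f1 hF (z := (x, a)) ⟨k', k⟩).1
  obtain ⟨u, hu⟩ := P.geo₂.onto y q₂
  obtain ⟨u', hu'⟩ := (fr_T P.geo₂ hy q₂ hu).exists
  obtain ⟨x₂, k₂, s, hs⟩ := (fr_ae P.geo₂ hy q₂ hP hu' (t₂.and g₁)).exists
  have key : ∀ z ∈ T E₁ i y ×ˢ T E₂ i y, ψ z = s := fun z hz => by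
    have k1 : ∃ᶠ x in 𝓝[T E₁ i y] z.1, ψ (x, z.2) = s := frequently_nhdsWithin_iff.2
      ((fr_ae P.geo₁ hy q₁ hP hz.1 (t₁.and g₂)).mono fun x ⟨k, s', hs'⟩ =>
        ⟨(hs' _ hz.2).trans ((hs' _ k₂).symm.trans (hs x k)), k⟩)
    exact tendsto_nhds_unique_of_frequently_eq ((c z hz).comp (f := fun x => (x, z.2))
      (Continuous.prodMk_left _).continuousWithinAt fun _ k => ⟨k, hz.2⟩) tendsto_const_nhds k1
  refine ⟨s, fun x hx hx' => tendsto_nhds_unique_of_frequently_eq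
    ((hF _ _ _ _ E.g φ x P.geo.hol).2.2.1 ((P.geo.reg y hQ).sbm P.geo.hol P.geo.snc hx')
      (hφ x hx hx')) tendsto_const_nhds (frequently_nhdsWithin_iff.2
    (((fr_T P.geo hy hQ hx').and_eventually (hO.mem_nhds hx)).mono fun x' k => ?_))⟩
  exact ⟨by rw [← f2 x' k.2 k.1.2, ← hψ x' k.1.1.1.2 k.1.2,
    key _ ((mem_iff P hy hQ k.1.2).1 k.1)], Eq.trans k.1.2 hx'.symm⟩

end Vale.Agent.P281Z.Cv
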