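import Vale.Agent.P281Z.Cv.Defs
import Vale.Agent.P281Z.Pk.Rl
import Vale.Agent.P281Z.Mf.Fib

/-!
# P281Z, the cover of the fibre power: tools
-/

set_option linter.all false

open scoped Manifold ContDiff Topology ENNReal
open Set Filter MeasureTheory
open Vale.Agent.P272.K Vale.Agent.P285.H281.FD
open Vale.Agent.P277Z (Hol at_chart)
open Vale.Agent.P281Z.Hg (PC IsPC)
open Vale.Agent.P281Z.Pk

noncomputable section

namespace Vale.Agent.P281Z.Cv

namespace Tools

variable {w e : ℕ} {X : Mf (w + e)} {W : Mf w} {g : X.X → W.X} {q : PC w e X.X W.X} {x x' : X.X}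

/-- the slice of a product chart tends to the point, inside the fibre -/
theorem sl_tend (hq : IsPC g q) (hx : x ∈ q.2.source) :
    Tendsto (fun z => q.2.symm ((q.2 x).1, z)) (𝓝 (q.2 x).2) (𝓝[g ⁻¹' {g x}] x) := by
  have c := (Continuous.prodMk_right (q.2 x).1).tendsto (q.2 x).2
  refine tendsto_nhdsWithin_iff.2 ⟨(q.2.tendsto_symm hx).comp c, ?_⟩
  filter_upwards [c.eventually (q.2.open_target.mem_nhds (q.2.map_source hx))] with z hz
  rw [(hq.2.fst x hx).2] at hz ⊢
  exact Mg.pc_fib hq (hq.2.fst x hx).1 hz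

theorem sl_eq (hq : IsPC g q) (hx : x ∈ q.2.source) (hx' : x' ∈ q.2.source) (h : g x' = g x) :
    q.2.symm ((q.2 x).1, (q.2 x').2) = x' := by
  rw [(hq.2.fst x hx).2, ← h, Mg.pc_eq hq hx', q.2.left_inv hx']

theorem open_O {m : ℕ} {B : Bs w} {E : Et B e m} (hE : E.Geo) (i) : IsOpen (E.O i) :=
  (((hE.base.lb.isOpen i).sdiff hE.thin₀.closed).preimage hE.hol.cont).inter (snc_open_off hE.snc)

end Tools

open Tools

theorem rho0 : RHO0 := fun w e m B E hE => by
  have h : ∀ x, ∃ (C p : ℝ), 0 < C ∧ p ≤ C * E.ρ x ∧ 0 ≤ p ∧ (x ∈ off E.G → 0 < p) := fun x => by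
    obtain ⟨ζ, hζ, -⟩ := hE.snc x
    obtain ⟨r, C, h1, h2⟩ := hE.cpb x ζ hζ
    exact ⟨C, _, h1, h2.self_of_nhds.2, by positivity, fun k => Finset.prod_pos fun l _ =>
      pow_pos (norm_pos_iff.2 (mt (hζ l).1.self_of_nhds.1 (k l))) _⟩
  refine ⟨fun x => ?_, fun x k => ?_, ?_, fun ε _ =>
    ENNReal.measurable_ofReal.comp (hE.cont.measurable.pow_const ε)⟩
  · obtain ⟨C, p, h1, h2, h3, -⟩ := h x
    exact nonneg_of_mul_nonneg_right (h3.trans h2) h1
  · obtain ⟨C, p, h1, h2, -, h3⟩ := h x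
    exact (mul_pos_iff_of_pos_left h1).1 ((h3 k).trans_le h2)
  · obtain ⟨K, hK⟩ := (isCompact_range hE.cont).bddAbove
    exact ⟨K, fun x => hK ⟨x, rfl⟩⟩

theorem fht : FHT := fun w e X W g φ x hg => by
  refine ⟨fun h q hq hx => Mg.sl_an hq hx h, fun q hq hx h q' hq' hx' => ?_, fun hs h => ?_,
    fun φ' k h q hq hx => (h q hq hx).congr (((sl_tend hq hx).eventually
      (eventually_nhdsWithin_iff.2 k)).mono fun _ => Eq.symm)⟩
  · refine (h.comp_of_eq (analyticAt_snd.fun_comp (Mg.sl_an hq' hx' ((Mg.pc_co hq).an x hx)))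
      (by simp only [Prod.mk.eta, q'.2.left_inv hx'])).congr ?_
    filter_upwards [(sl_tend hq' hx').eventually (inter_mem (mem_nhdsWithin_of_mem_nhds
      (q.2.open_source.mem_nhds hx)) self_mem_nhdsWithin)] with z hz
    exact congrArg φ (sl_eq hq hx hz.1 hz.2)
  · obtain ⟨q, hq, -, hx, -⟩ := Mg.ex_pc (hg.at x) hs (at_chart _) univ_mem
    refine ((h q hq hx).continuousAt.comp (f := fun y => (q.2 y).2) (continuousAt_snd.comp
      (q.2.continuousAt hx))).continuousWithinAt.congr_of_eventuallyEq ?_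
      (congrArg φ (sl_eq hq hx hx rfl).symm)
    filter_upwards [mem_nhdsWithin_of_mem_nhds (q.2.open_source.mem_nhds hx), self_mem_nhdsWithin]
      with z a b using congrArg φ (sl_eq hq hx a b).symm

theorem pos_of (h : NU) : POS := fun w e m B E hE i y hy hQ => by
  obtain ⟨⟨h0, h1⟩, -⟩ := h w e m B E hE i y hy hQ
  have hO := open_O hE i
  have ex : ∀ x, E.g x = y → ∃ q : PC w e E.X.X B.W.X, IsPC E.g q ∧ x ∈ q.2.source ∧
      y ∈ q.1.source := fun x hx =>
    let ⟨q, hq, _, k, _⟩ := Mg.ex_pc (hE.hol.at x) ((hE.reg y hQ).sbm hE.hol hE.snc hx)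
      (at_chart _) univ_mem
    ⟨q, hq, k, hx ▸ (hq.2.fst x k).1⟩
  refine ⟨?_, fun x hx e ht U hU h2 => ?_⟩
  · rw [compl_inter]
    refine measure_union_null (measure_null_of_locally_null _ fun x _ => ?_) h0
    by_cases hx : E.g x = y
    swap
    · exact ⟨_, mem_nhdsWithin_of_mem_nhds
        ((isClosed_singleton.preimage hE.hol.cont).isOpen_compl.mem_nhds hx), h0⟩
    obtain ⟨q, hq, k, k'⟩ := ex x hx
    have hm := q.2.open_source.measurableSet.inter hO.measurableSet.compl
    refine ⟨_, inter_mem (mem_nhdsWithin_of_mem_nhds (q.2.open_source.mem_nhds k))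
      self_mem_nhdsWithin, ?_⟩
    rw [← lintegral_indicator_one hm, h1 q hq k' _ (measurable_one.indicator hm)
      fun x' c => indicator_of_notMem (fun c' => c c'.1) _]
    refine (lintegral_congr fun z => ?_).trans lintegral_zero
    by_cases c : q.2.symm (q.1 y, z) ∈ E.O i
    · rw [indicator_of_notMem (fun c' => c'.2 c), zero_mul]
    · rw [fmm, indicator_of_notMem c, mul_zero]
  · obtain ⟨q, hq, k, k'⟩ := ex x e
    have hχ : At (B.ch i) (E.g x) := hE.base.ch i _ (e ▸ hy)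
    have c1 := (rl_hol (hE.hol.at x) (mem_of_superset (hO.mem_nhds hx) fun z hz c c' =>
      hE.tchg i c c' z hz) (hE.thol i _ x hx (at_chart x)) hq k hχ).cont
    obtain ⟨c, c0, c2⟩ := exists_between (ENNReal.rpow_pos (p := (2 / m : ℝ))
      (enorm_pos.2 ((rl_ne (m := m) hq k hχ).2 ht)) enorm_ne_top)
    obtain ⟨N, hN, oN, xN⟩ := _root_.eventually_nhds_iff.1
      (((ENNReal.continuous_rpow_const.continuousAt.comp c1.enorm).eventually (lt_mem_nhds c2)).and
        (inter_mem hU (inter_mem (hO.mem_nhds hx) (q.2.open_source.mem_nhds k))))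
    have hp := Mg.par_pc hq k'
    have oT := hp.cont.isOpen_inter_preimage hp.oT oN
    have h3 : E.ν i y N = 0 := measure_mono_null (fun z hz => (hN z hz).2.1) h2
    rw [← lintegral_indicator_one oN.measurableSet, h1 q hq k' _
      (measurable_one.indicator oN.measurableSet)
      fun x' c => indicator_of_notMem (fun c' => c (hN _ c').2.2.2) _] at h3
    have h4 := ((setLIntegral_mono' oT.measurableSet (f := fun _ => c) fun z hz => by
      rw [indicator_of_mem (show _ ∈ N from hz.2), fmm, indicator_of_mem (hN _ hz.2).2.2.1,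
        Pi.one_apply, one_mul]
      exact (hN _ hz.2).1.le).trans (lintegral_mono_set inter_subset_left)).trans_eq h3
    rw [setLIntegral_const, nonpos_iff_eq_zero, mul_eq_zero] at h4
    obtain ⟨a, b⟩ := hp.inv x e k
    exact h4.elim c0.ne' (oT.measure_ne_zero _ ⟨_, a, by rwa [mem_preimage, b]⟩)

theorem den : DEN := fun n p X W g κ _ G x hg hS h => by
  obtain ⟨F, i, hi, k⟩ := h.fib (d := n - p) (Nat.add_sub_cancel' (h.sbm hg hS rfl).le).symm hg hS
  obtain ⟨z, hz⟩ := hi.ex (y := x) rfl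
  exact ((hz ▸ hi.hol.cont.tendsto z : Tendsto i (𝓝 z) (𝓝 x))).frequently
    ((mem_closure_iff_frequently.1 (snc_dense_off k z)).mono fun z' c => ⟨hi.fib z', c⟩)

end Vale.Agent.P281Z.Cv
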