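import Vale.Agent.P281Z.Cv.Defs
import Vale.Agent.P281Z.Pk.Glue

/-!
# P281Z, the cover of the fibre power: the measures on the fibres of the cover
-/

open scoped Manifold ContDiff Topology ENNReal
open Set Filter MeasureTheory Function
open Vale.Agent.P272.K Vale.Agent.P285.H281.FD
open Vale.Agent.P281Z.Hg (PC IsPC)
open Vale.Agent.P281Z.Pk

noncomputable section

namespace Vale.Agent.P281Z.Cv

namespace Trf

variable {w e : ℕ} {X X' : Mf (w + e)} {W : Mf w} {g : X.X → W.X} {g' : X'.X → W.X}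
  {p : X.X → X'.X} {q : PC w e X.X W.X} {q' : PC w e X'.X W.X} {f : X.X → ℝ≥0∞} {y : W.X}
  {μ : Measure X.X} {μ' : Measure X'.X}

/-- the sum over the fibre -/
abbrev sm (p : X.X → X'.X) (f : X.X → ℝ≥0∞) (x : X'.X) : ℝ≥0∞ := ∑' x' : p ⁻¹' {x}, f x'

theorem sm_mem (hq : ∀ x ∈ q.2.source, p x ∈ q'.2.source ∧ q.2 x = q'.2 (p x))
    (h0 : ∀ x ∉ q.2.source, f x = 0) {x : X.X} (hx : x ∈ q.2.source) : sm p f (p x) = f x :=
  tsum_eq_single (⟨x, rfl⟩ : p ⁻¹' {p x}) fun x' k => h0 _ fun h => k (Subtype.ext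
    (q.2.injOn h hx (by rw [(hq _ h).2, (hq _ hx).2, show p x' = p x from x'.2])))

theorem sm_not (hq : ∀ x ∈ q.2.source, p x ∈ q'.2.source ∧ q.2 x = q'.2 (p x))
    (h0 : ∀ x ∉ q.2.source, f x = 0) {x : X'.X} (hx : x ∉ q'.2.source ∩ q'.2 ⁻¹' q.2.target) :
    sm p f x = 0 :=
  ENNReal.tsum_eq_zero.2 fun x' => h0 _ fun h => hx (by
    rw [← show p x' = x from x'.2]
    exact ⟨(hq _ h).1, by rw [mem_preimage, ← (hq _ h).2]; exact q.2.map_source h⟩)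

theorem p_symm (hq : ∀ x ∈ q.2.source, p x ∈ q'.2.source ∧ q.2 x = q'.2 (p x)) {z}
    (hz : z ∈ q.2.target) : z ∈ q'.2.target ∧ q'.2.symm z = p (q.2.symm z) := by
  obtain ⟨k1, k2⟩ := hq _ (q.2.map_target hz)
  rw [q.2.right_inv hz] at k2
  exact ⟨k2 ▸ q'.2.map_source k1, by rw [← q'.2.left_inv k1, ← k2]⟩

theorem sm_meas (hq : ∀ x ∈ q.2.source, p x ∈ q'.2.source ∧ q.2 x = q'.2 (p x))
    (hf : Measurable f) (h0 : ∀ x ∉ q.2.source, f x = 0) : Measurable (sm p f) := by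
  classical
  have o : IsOpen (q'.2.source ∩ q'.2 ⁻¹' q.2.target) :=
    q'.2.isOpen_inter_preimage q.2.open_target
  have c : ContinuousOn (fun x => q.2.symm (q'.2 x)) (q'.2.source ∩ q'.2 ⁻¹' q.2.target) :=
    q.2.continuousOn_symm.comp (q'.2.continuousOn.mono inter_subset_left) fun _ h => h.2
  have m := (hf.comp (c.measurable_piecewise (g := fun _ => q.2.symm 0) continuousOn_const
    o.measurableSet)).indicator o.measurableSet
  refine (funext fun x => ?_ : _ = sm p f) ▸ m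
  by_cases k : x ∈ q'.2.source ∩ q'.2 ⁻¹' q.2.target
  · rw [indicator_of_mem k, comp_apply, piecewise_eq_of_mem _ _ _ k,
      ← sm_mem hq h0 (q.2.map_target k.2), ← (p_symm hq k.2).2, q'.2.left_inv k.1]
  · rw [indicator_of_notMem k, sm_not hq h0 k]

theorem slice_meas (q : PC w e X.X W.X) (a : Cm w) : MeasurableSet {z | (a, z) ∈ q.2.target} :=
  (q.2.open_target.preimage (Continuous.prodMk_right a)).measurableSet

/-- functions with support in a chart -/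
theorem loc {D : PC w e X.X W.X → X.X → ℝ≥0∞} {D' : PC w e X'.X W.X → X'.X → ℝ≥0∞}
    (hμ : IsFm g y D μ) (hμ' : IsFm g' y D' μ') (h1 : IsPC g q) (h2 : IsPC g' q') (h3 : q'.1 = q.1)
    (hq : ∀ x ∈ q.2.source, p x ∈ q'.2.source ∧ q.2 x = q'.2 (p x))
    (hD : ∀ x ∈ q.2.source, g x = y → D q x = D' q' (p x)) (hf : Measurable f)
    (h0 : ∀ x ∉ q.2.source, f x = 0) : ∫⁻ x, f x ∂μ = ∫⁻ x, sm p f x ∂μ' := by
  have h0' : ∀ x ∉ q'.2.source, sm p f x = 0 := fun x hx => sm_not hq h0 fun k => hx k.1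
  by_cases hy : y ∈ q.1.source
  · rw [hμ.2 q h1 hy f hf h0, hμ'.2 q' h2 (h3 ▸ hy) _ (sm_meas hq hf h0) h0', h3,
      Mg.lint_sub (slice_meas q' _) (slice_meas q _) (fun z hz => (p_symm hq hz).1) fun z hz k => by
        rw [sm_not hq h0 fun a => k (by have := a.2; rwa [mem_preimage, q'.2.right_inv hz] at this),
          zero_mul]]
    refine setLIntegral_congr_fun (slice_meas q _) fun z hz => ?_
    have k := q.2.map_target hz
    have k' := h1.2.fst _ k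
    rw [q.2.right_inv hz] at k'
    simp only [(p_symm hq hz).2, sm_mem hq h0 k, hD _ k (q.1.injOn k'.1 hy k'.2.symm)]
  · have a : ∀ᵐ x ∂μ, f x = 0 := Eventually.mono (mem_ae_iff.2 hμ.1) fun x hx =>
      h0 x fun k => hy (hx ▸ (h1.2.fst x k).1)
    have a' : ∀ᵐ x ∂μ', sm p f x = 0 := Eventually.mono (mem_ae_iff.2 hμ'.1) fun x hx =>
      h0' x fun k => hy (hx ▸ h3 ▸ (h2.2.fst x k).1)
    rw [lintegral_congr_ae a, lintegral_congr_ae a', lintegral_zero, lintegral_zero]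

/-- all functions -/
theorem glob {I : Type} {V : I → Set X.X} (hV : ∀ a, IsOpen (V a))
    (h : ∀ a, ∀ f : X.X → ℝ≥0∞, Measurable f → (∀ x ∉ V a, f x = 0) →
      Measurable (sm p f) ∧ ∫⁻ x, f x ∂μ = ∫⁻ x, sm p f x ∂μ')
    (h1 : ∀ᵐ x ∂μ, x ∈ ⋃ a, V a) (h2 : ∀ᵐ x ∂μ', p ⁻¹' {x} ⊆ ⋃ a, V a) (hf : Measurable f) :
    AEMeasurable (sm p f) μ' ∧ ∫⁻ x, f x ∂μ = ∫⁻ x, sm p f x ∂μ' := by
  obtain ⟨J, A, a1, a2, a3, a4, a5⟩ := Mg.part hV
  have := a1.to_subtype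
  have k := fun j : J => h j _ (hf.indicator (a2 j))
    fun x hx => indicator_of_notMem (mt (a3 j ·) hx) _
  have e : ∀ᵐ x ∂μ', ∑' j, sm p ((A j).indicator f) x = sm p f x := h2.mono fun x hx => by
    rw [ENNReal.tsum_comm]
    refine tsum_congr fun x' => ?_
    obtain ⟨j, hj⟩ := mem_iUnion.1 (a5 ▸ hx x'.2)
    rw [tsum_eq_single j fun j' b => indicator_of_notMem (disjoint_right.1 (a4 b) hj) _,
      indicator_of_mem hj]
  refine ⟨(Measurable.tsum fun j => (k j).1).aemeasurable.congr e, ?_⟩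
  rw [Mg.lint_part a2 a4 (h1.mono fun x hx b => (b (a5 ▸ hx)).elim), ← lintegral_congr_ae e,
    lintegral_tsum fun j => (k j).1.aemeasurable]
  exact tsum_congr fun j => (k j).2

theorem dens {m : ℕ} (hm : 0 < m) {a b : ℂ} (h : a ^ m = b) :
    ‖a‖ₑ ^ (2 / (1 : ℕ) : ℝ) = ‖b‖ₑ ^ (2 / m : ℝ) := by
  have : (m : ℝ) ≠ 0 := Nat.cast_ne_zero.2 hm.ne'
  rw [← h, enorm_pow, ← ENNReal.rpow_natCast, ← ENNReal.rpow_mul, Nat.cast_one, div_one,
    mul_div_cancel₀ _ this]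

end Trf

open Trf in
/-- **TRF** -/
theorem trf_of (hN : NU) (hL : NUL) (hB : BIGO) (hP : POS) (hR : RHO0) : TRF := by
  intro w e m N B E Q C p A h i y hy hQ
  have hE : y ∉ E.Q := fun k => hQ (h.sub k)
  have hq : y ∉ Q := fun k => hE (h.sb₀.sub k)
  have nC := (hN _ _ _ _ C h.geo i y hy hQ).1
  have nE := (hN _ _ _ _ E h.geo₀ i y hy hE).1
  have aC : ∀ᵐ x ∂C.ν i y, x ∈ off C.G :=
    Eventually.mono (mem_ae_iff.2 (hP _ _ _ _ C h.geo i y hy hQ).1) fun x hx => hx.1.2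
  have aE : ∀ᵐ x ∂E.ν i y, x ∉ A := by
    obtain ⟨b1, b2⟩ := hB _ _ _ _ E h.geo₀ i
    filter_upwards [mem_ae_iff.2 (hL _ _ _ _ E h.geo₀ i y hy hE _ b1 (b2 y hy hE)),
      mem_ae_iff.2 nE.1] with x k1 k2
    exact (h.bad i x k1.1.1.1).2 ⟨(show E.g x = y from k2) ▸ hq, k1.1.2, k1.2⟩
  choose q q' c1 c2 c3 c4 c5 using fun x : off C.G => h.chart x x.2
  have cov : off C.G ⊆ ⋃ x, (q x).2.source := fun x hx => mem_iUnion.2 ⟨⟨x, hx⟩, c4 _⟩
  have main : ∀ f : C.X.X → ℝ≥0∞, Measurable f → AEMeasurable (sm p f) (E.ν i y) ∧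
      ∫⁻ x, f x ∂C.ν i y = ∫⁻ x, sm p f x ∂E.ν i y := fun f hf => by
    refine glob (fun x => (q x).2.open_source) (fun x f hf h0 => ?_) (aC.mono cov)
      (aE.mono fun x hx x' k => cov ((h.mem x').2 ((show p x' = x from k) ▸ hx))) hf
    have hq' := fun z hz => And.intro (c5 x z hz).2.1 (c5 x z hz).2.2.1
    refine ⟨sm_meas hq' hf h0, loc nC nE (c1 x) (c2 x) (c3 x) hq' (fun z hz k => ?_) hf h0⟩
    have k1 : C.g z ∈ B.l.U i := k ▸ hy
    have k2 : E.g (p z) ∈ B.l.U i := h.g z ▸ k1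
    have k3 := (h.bad i _ k2).1 ((h.mem z).1 (c5 x z hz).1)
    have o1 : z ∈ C.O i := ⟨⟨k1, by rw [h.q₀, k]; exact hq⟩, (c5 x z hz).1⟩
    have o2 : p z ∈ E.O i := ⟨⟨k2, fun a => k3.1 (h.sb₀.sub₀ a)⟩, k3.2.1⟩
    exact (indicator_of_mem o1 _).trans ((dens h.geo₀.pos ((c5 x z hz).2.2.2 i k1)).trans
      (indicator_of_mem o2 fun x' => ‖rl m (B.ch i) E.g (E.t i) (q' x) x'‖ₑ ^ (2 / m : ℝ)).symm)
  refine ⟨main, fun ε hε => ?_⟩
  refine (main _ ((hR _ _ _ _ C h.geo).2.2.2 ε hε)).2.trans (Eq.trans (lintegral_congr_ae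
    (aE.mono fun x hx => ?_)) (lintegral_const_mul' _ (E.wt ε) (ENNReal.natCast_ne_top m)))
  obtain ⟨σ, -, k⟩ := h.cvg x hx
  obtain ⟨k1, k2⟩ := k.self_of_nhds
  have k3 : ∀ x' : p ⁻¹' {x}, C.wt ε x' = E.wt ε x := fun x' => by
    rw [Et.wt, Et.wt, h.rho, show p x' = x from x'.2]
  show ∑' x' : p ⁻¹' {x}, C.wt ε x' = m * E.wt ε x
  rw [tsum_congr k3, ← ((Equiv.ofInjective _ k1).trans (Equiv.setCongr k2)).tsum_eq, tsum_fintype,
    Finset.sum_const, Finset.card_fin, nsmul_eq_mul]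

end Vale.Agent.P281Z.Cv
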