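import Vale.Agent.P281Z.Cv.Main
import Vale.Agent.P281Z.Cv.Crg
import Vale.Agent.P281Z.Cv.Jac
import Vale.Agent.P281Z.Cv.Tools
import Vale.Agent.P281Z.Cv.Cpb
import Vale.Agent.P281Z.Cv.Prg
import Vale.Agent.P281Z.Cv.Prm
import Vale.Agent.P281Z.Cv.Pru
import Vale.Agent.P281Z.Cv.Trf
import Vale.Agent.P281Z.Cv.Mean
import Vale.Agent.P281Z.Pk.L2x
import Vale.Agent.P281Z.Bs.Ord
import Vale.Agent.P281Z.Gl.Loc

/-!
# P281Z, the cover of the fibre power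
-/

open Vale.Agent.P281Z.Pk

namespace Vale.Agent.P281Z.Cv

theorem cov_all (hR : Rs.RES) (hG : GEN) : COV :=
  have t := trf_of nu (nul_of nu) bigo (pos_of nu) rho0
  cov_of (prg_of hR hG j1 j2 j3 j4 den cpb) (prm_of rho0)
    (pru_of nu (l2x_of nu) (prm_of rho0) (pos_of nu) rho0 fht)
    (crg_of hR hG (Bs.ordm_of Gt.grow) j1 j2 j3 den cpb) t
    (mean_of (nul_of nu) bigo t (pos_of nu) rho0 fht) cpb

end Vale.Agent.P281Z.Cv
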