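import Vale.Agent.P281Z.Pk.Sk
import Vale.Agent.P281Z.Bs.Defs

/-!
# P281Z, the cover of the fibre power: definitions and statements
-/

open scoped Manifold ContDiff Topology ENNReal
open Set Filter MeasureTheory
open Vale.Agent.P272.K Vale.Agent.P285.H281.FD
open Vale.Agent.P277Z (Hol jd)
open Vale.Agent.P277Z.Slc (LEq Snc)
open Vale.Agent.P277Z.Hir (Cpb)
open Vale.Agent.P281Z.Hg (PC IsPC)
open Vale.Agent.P281Z.Pk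
open Vale.Agent.P281Z.Gt (Cvg)

noncomputable section

namespace Vale.Agent.P281Z.Cv

variable {w e e₁ e₂ m a b N : ℕ}

/-! ### Jacobians -/

/-- the Jacobian determinant of `(χ ∘ g, u)` -/
def jf {X : Mf (w + e)} {W : Mf w} (χ : Chart w W.X) (g : X.X → W.X) (u : Fin e → X.X → ℂ)
    (c : Chart (w + e) X.X) (x : X.X) : ℂ := jd (Fin.append (fun a x => χ (g x) a) u) c x

/-- a statement on `jf` -/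
def ForJ (P : ∀ (w e : ℕ) (X : Mf (w + e)) (W : Mf w), Chart w W.X → (X.X → W.X) →
    (Fin e → X.X → ℂ) → Chart (w + e) X.X → X.X → Prop) : Prop :=
  ∀ (w e : ℕ) (X : Mf (w + e)) (W : Mf w) χ g u c x, HolM (w + e) w g → At χ (g x) → At c x →
    (∀ a, Hol (w + e) (u a) x) → P w e X W χ g u c x

/-- **J1**: holomorphy, changes of the charts -/
def J1 : Prop := ForJ fun w e _ _ χ g u c x => Hol (w + e) (jf χ g u c) x ∧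
  (∀ c', At c' x → jf χ g u c x = (jacM c c' x).det * jf χ g u c' x) ∧
  (∀ χ', At χ' (g x) → jf χ' g u c x = (jacM χ χ' (g x)).det * jf χ g u c x) ∧
  (∀ u', (∀ a, ∀ᶠ y in 𝓝 x, u' a y = u a y) → jf χ g u' c x = jf χ g u c x) ∧
  ∀ (X' : Mf (w + e)) (p : X'.X → _) c' x', HolM (w + e) (w + e) p → p x' = x → At c' x' →
    jf χ (fun y => g (p y)) (fun a y => u a (p y)) c' x' = (dfM p c' c x').det * jf χ g u c x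

/-- **J2**: product charts with given fibre coordinates -/
def J2 : Prop := ForJ fun w e X W χ g u c x => (jf χ g u c x ≠ 0 → Sbm (w + e) w g x ∧
  ∀ U ∈ 𝓝 x, ∃ q : PC w e X.X W.X, IsPC g q ∧ q.1 = χ ∧ x ∈ q.2.source ∧ q.2.source ⊆ U ∧
    ∀ y ∈ q.2.source, (q.2 y).2 = fun a => u a y) ∧
  (Sbm (w + e) w g x → ∃ I : Fin e → Fin (w + e), jf χ g (fun a y => c y (I a)) c x ≠ 0)

/-- **J3**: the relative coefficient -/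
def J3 : Prop := ForJ fun w e X W χ g _ c x => ∀ (q : PC w e X.X W.X) (m : ℕ)
  (t : Chart (w + e) X.X → X.X → ℂ), IsPC g q → x ∈ q.2.source →
  (∀ a, Hol (w + e) (fun y => (q.2 y).2 a) x) ∧ jf χ g (fun a y => (q.2 y).2 a) c x ≠ 0 ∧
  (t c x = (jacM c (chartAt (Cm (w + e)) x) x).det ^ m * t (chartAt (Cm (w + e)) x) x →
    rl m χ g t q x * jf χ g (fun a y => (q.2 y).2 a) c x ^ m = t c x)

/-- the fibre coordinates on a fibre product -/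
def ap {X X₁ X₂ : Type} (p₁ : X → X₁) (p₂ : X → X₂) (u₁ : Fin e₁ → X₁ → ℂ) (u₂ : Fin e₂ → X₂ → ℂ) :
    Fin (e₁ + e₂) → X → ℂ := Fin.append (fun a x => u₁ a (p₁ x)) fun a x => u₂ a (p₂ x)

/-- **J4**: Jacobians on a fibre product -/
def J4 : Prop := ∀ (w e₁ e₂ : ℕ) (X : Mf (w + (e₁ + e₂))) (X₁ : Mf (w + e₁)) (X₂ : Mf (w + e₂))
  (W : Mf w) (χ : Chart w W.X) (g : X.X → W.X) (g₁ : X₁.X → W.X) (g₂ : X₂.X → W.X)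
  (p₁ : X.X → X₁.X) (p₂ : X.X → X₂.X) c c₁ c₂ (u₁ : Fin e₁ → X₁.X → ℂ) (u₂ : Fin e₂ → X₂.X → ℂ) x,
  HolM (w + e₁) w g₁ → HolM (w + e₂) w g₂ → HolM (w + (e₁ + e₂)) (w + e₁) p₁ →
  HolM (w + (e₁ + e₂)) (w + e₂) p₂ → (∀ y, g₁ (p₁ y) = g y) → (∀ y, g₂ (p₂ y) = g y) →
  At χ (g x) → At c x → At c₁ (p₁ x) → At c₂ (p₂ x) → (∀ a, Hol (w + e₁) (u₁ a) (p₁ x)) →
  (∀ a, Hol (w + e₂) (u₂ a) (p₂ x)) → jf χ g₁ u₁ c₁ (p₁ x) ≠ 0 → jf χ g₂ u₂ c₂ (p₂ x) ≠ 0 →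
  ((∀ ξ, df p₁ c c₁ x ξ = 0 → df p₂ c c₂ x ξ = 0 → ξ = 0) → jf χ g (ap p₁ p₂ u₁ u₂) c x ≠ 0) ∧
  ∀ (v₁ : Fin e₁ → X₁.X → ℂ) (v₂ : Fin e₂ → X₂.X → ℂ), (∀ a, Hol (w + e₁) (v₁ a) (p₁ x)) →
    (∀ a, Hol (w + e₂) (v₂ a) (p₂ x)) →
    jf χ g (ap p₁ p₂ v₁ v₂) c x * (jf χ g₁ u₁ c₁ (p₁ x) * jf χ g₂ u₂ c₂ (p₂ x)) =
      jf χ g (ap p₁ p₂ u₁ u₂) c x * (jf χ g₁ v₁ c₁ (p₁ x) * jf χ g₂ v₂ c₂ (p₂ x))

/-! ### Tools -/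

/-- **RHO0** -/
def RHO0 : Prop := ForE fun _ _ _ _ E => (∀ x, 0 ≤ E.ρ x) ∧ (∀ x ∈ off E.G, 0 < E.ρ x) ∧
  (∃ K, ∀ x, E.ρ x ≤ K) ∧ ∀ ε, 0 ≤ ε → Measurable (E.wt ε)

/-- **FHT**: functions which are holomorphic along the fibres -/
def FHT : Prop := ∀ (w e : ℕ) (X : Mf (w + e)) (W : Mf w) (g : X.X → W.X) (φ : X.X → ℂ) (x : X.X),
  HolM (w + e) w g → (Hol (w + e) φ x → FH g φ x) ∧
  (∀ q : PC w e X.X W.X, IsPC g q → x ∈ q.2.source →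
    AnalyticAt ℂ (fun z => φ (q.2.symm ((q.2 x).1, z))) (q.2 x).2 → FH g φ x) ∧
  (Sbm (w + e) w g x → FH g φ x → ContinuousWithinAt φ (g ⁻¹' {g x}) x) ∧
  ∀ φ', (∀ᶠ y in 𝓝 x, g y = g x → φ' y = φ y) → FH g φ x → FH g φ' x

/-- **POS**: the support of the measures on the fibres -/
def POS : Prop := ForE fun w e _ B E => ∀ i, ∀ y ∈ B.l.U i, y ∉ E.Q →
  E.ν i y (E.O i ∩ E.g ⁻¹' {y})ᶜ = 0 ∧ ∀ x ∈ E.O i, E.g x = y →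
    E.t i (chartAt (Cm (w + e)) x) x ≠ 0 → ∀ U ∈ 𝓝 x, E.ν i y U ≠ 0

/-- **DEN**: the divisors are nowhere dense in a regular fibre -/
def DEN : Prop := ∀ (n p : ℕ) (X : Mf n) (W : Mf p) (g : X.X → W.X) (κ : Type) [Fintype κ]
  (G : κ → Set X.X) (x : X.X), HolM n p g → Snc n G → RegAt n p g G (g x) →
  ∃ᶠ x' in 𝓝 x, g x' = g x ∧ x' ∈ off G

/-- `ρ` is comparable with monomials -/
def Cp {n : ℕ} {X : Mf n} {κ : Type} [Fintype κ] (G : κ → Set X.X) (ρ : X.X → ℝ) : Prop :=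
  ∀ x (ζ : κ → X.X → ℂ), (∀ l, LEq n (G l) x (ζ l)) →
    ∃ r : κ → ℕ, Cpb (𝓝 x) ρ fun y => ∏ l, ‖ζ l y‖ ^ r l

/-- **CPB**: pull backs and products of the weights, global exponents -/
def CPB : Prop := ∀ (n : ℕ) (X : Mf n) (κ : Type) [Fintype κ] (G : κ → Set X.X), Snc n G →
  (∀ (n' : ℕ) (X' : Mf n') (κ' : Type) [Fintype κ'] (G' : κ' → Set X'.X) (p : X.X → X'.X) ρ,
    Snc n' G' → HolM n n' p → (∀ x ∈ off G, p x ∈ off G') → Cp G' ρ → Cp G fun x => ρ (p x)) ∧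
  (∀ ρ ρ', Cp G ρ → Cp G ρ' → Cp G fun x => ρ x * ρ' x) ∧
  ∀ ρ, (∀ l, IsConnected (G l)) → Cp G ρ → ∃ r : κ → ℕ, ∀ x (ζ : κ → X.X → ℂ),
    (∀ l, LEq n (G l) x (ζ l)) → Cpb (𝓝 x) ρ fun y => ∏ l, ‖ζ l y‖ ^ r l

/-! ### Fibre products -/

variable {B : Bs w}

/-- `g` is a submersion off `G` and `Q` -/
structure Sb (E : Et B e m) (Q : Set B.W.X) : Prop where
  thin : Thin w Q
  sub₀ : E.Q₀ ⊆ Q
  sub : Q ⊆ E.Q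
  sbm : ∀ x ∈ off E.G, E.g x ∉ Q → Sbm (w + e) w E.g x

/-- `E` is the fibre product of `E₁` and `E₂` -/
structure Pr (E₁ : Et (B.pow a) e₁ m) (E₂ : Et (B.pow b) e₂ m) (Q : Set B.W.X)
    (E : Et (B.pow (a + b)) (e₁ + e₂) m) (p₁ : E.X.X → E₁.X.X) (p₂ : E.X.X → E₂.X.X) : Prop where
  geo₁ : E₁.Geo
  geo₂ : E₂.Geo
  sb₁ : Sb E₁ Q
  sb₂ : Sb E₂ Q
  geo : E.Geo
  sb : Sb E Q
  q₀ : E.Q₀ = Q
  s₁ : E₁.Q ⊆ E.Q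
  s₂ : E₂.Q ⊆ E.Q
  h₁ : HolM (w + (e₁ + e₂)) (w + e₁) p₁
  h₂ : HolM (w + (e₁ + e₂)) (w + e₂) p₂
  g₁ : ∀ x, E₁.g (p₁ x) = E.g x
  g₂ : ∀ x, E₂.g (p₂ x) = E.g x
  mem : ∀ x, x ∈ off E.G ↔ E.g x ∉ Q ∧ p₁ x ∈ off E₁.G ∧ p₂ x ∈ off E₂.G
  one : ∀ x₁ ∈ off E₁.G, ∀ x₂ ∈ off E₂.G, E₁.g x₁ = E₂.g x₂ → E₁.g x₁ ∉ Q →
    ∃! x, p₁ x = x₁ ∧ p₂ x = x₂
  rho : ∀ x, E.ρ x = E₁.ρ (p₁ x) * E₂.ρ (p₂ x)
  chart : ∀ x ∈ off E.G, ∃ (q : PC w (e₁ + e₂) E.X.X B.W.X) (q₁ : PC w e₁ E₁.X.X B.W.X)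
    (q₂ : PC w e₂ E₂.X.X B.W.X), IsPC E.g q ∧ IsPC E₁.g q₁ ∧ IsPC E₂.g q₂ ∧ q₁.1 = q.1 ∧
    q₂.1 = q.1 ∧ x ∈ q.2.source ∧ ∀ y ∈ q.2.source, y ∈ off E.G ∧ p₁ y ∈ q₁.2.source ∧
      p₂ y ∈ q₂.2.source ∧ (q.2 y).2 = Fin.append (q₁.2 (p₁ y)).2 (q₂.2 (p₂ y)).2 ∧
      ∀ i, E.g y ∈ B.l.U i → rl m (B.ch i) E.g (E.t i) q y =
        rl m (B.ch i) E₁.g (E₁.t i) q₁ (p₁ y) * rl m (B.ch i) E₂.g (E₂.t i) q₂ (p₂ y)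

/-- a statement on fibre products -/
def ForR (P : ∀ (w e₁ e₂ m a b : ℕ) (B : Bs w) (E₁ : Et (B.pow a) e₁ m) (E₂ : Et (B.pow b) e₂ m)
    (E : Et (B.pow (a + b)) (e₁ + e₂) m), (E.X.X → E₁.X.X) → (E.X.X → E₂.X.X) → Prop) : Prop :=
  ∀ (w e₁ e₂ m a b : ℕ) (B : Bs w) E₁ E₂ Q E p₁ p₂, Pr E₁ E₂ Q E p₁ p₂ →
    P w e₁ e₂ m a b B E₁ E₂ E p₁ p₂

/-- **PRG**: fibre products exist -/
def PRG : Prop := ∀ (w e₁ e₂ m a b : ℕ) (B : Bs w) (E₁ : Et (B.pow a) e₁ m)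
  (E₂ : Et (B.pow b) e₂ m) (Q : Set B.W.X), B.Ok → E₁.Geo → E₂.Geo → Sb E₁ Q → Sb E₂ Q →
  ∃ E p₁ p₂, Pr E₁ E₂ Q E p₁ p₂

/-- **PRM**: the measures on the fibres -/
def PRM : Prop := ForR fun _ _ _ _ _ _ B E₁ E₂ E p₁ p₂ => ∀ i, ∀ y ∈ B.l.U i, y ∉ E.Q →
  (E.ν i y).map (fun x => (p₁ x, p₂ x)) = (E₁.ν i y).prod (E₂.ν i y) ∧
    ∀ ε : ℝ, 0 ≤ ε → E.J i ε y = E₁.J i ε y * E₂.J i ε y

/-- **PRU** -/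
def PRU : Prop := ForR fun _ _ _ _ _ _ _ E₁ E₂ E _ _ => E₁.Ok → E₂.Ok → E.Un

/-! ### The cyclic cover -/

/-- `C` is the cover of `E` which is defined by the `m`-th root of the forms -/
structure Cr (E : Et (B.pow (m * N)) e m) (Q : Set B.W.X) (C : Et (B.pow N) e 1)
    (p : C.X.X → E.X.X) (A : Set E.X.X) : Prop where
  geo₀ : E.Geo
  sb₀ : Sb E Q
  geo : C.Geo
  q₀ : C.Q₀ = Q
  sub : E.Q ⊆ C.Q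
  hol : HolM (w + e) (w + e) p
  g : ∀ x, E.g (p x) = C.g x
  cl : IsClosed A
  bad : ∀ i x, E.g x ∈ B.l.U i →
    (x ∉ A ↔ E.g x ∉ Q ∧ x ∈ off E.G ∧ E.t i (chartAt (Cm (w + e)) x) x ≠ 0)
  mem : ∀ x, x ∈ off C.G ↔ p x ∉ A
  imm : ∀ x ∈ off C.G, Imm (w + e) (w + e) p x
  cvg : Cvg (w + e) p A m
  rho : ∀ x, C.ρ x = E.ρ (p x)
  chart : ∀ x ∈ off C.G, ∃ (q : PC w e C.X.X B.W.X) (q' : PC w e E.X.X B.W.X), IsPC C.g q ∧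
    IsPC E.g q' ∧ q'.1 = q.1 ∧ x ∈ q.2.source ∧ ∀ y ∈ q.2.source, y ∈ off C.G ∧
      p y ∈ q'.2.source ∧ q.2 y = q'.2 (p y) ∧ ∀ i, C.g y ∈ B.l.U i →
        rl 1 (B.ch i) C.g (C.t i) q y ^ m = rl m (B.ch i) E.g (E.t i) q' (p y)
  conn : ∀ l, IsConnected (C.G l)
  nz : ∀ i c, ∀ x ∈ C.O i, At c x → C.t i c x ≠ 0
  ord : ∃ a : C.κ → ℤ, ∀ i c x, C.g x ∈ B.l.U i → At c x → OrdAt (w + e) C.G a (C.t i c) x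

/-- a statement on covers -/
def ForV (P : ∀ (w e m N : ℕ) (B : Bs w) (E : Et (B.pow (m * N)) e m) (C : Et (B.pow N) e 1),
    (C.X.X → E.X.X) → Prop) : Prop :=
  ∀ (w e m N : ℕ) (B : Bs w) E Q C p A, Cr E Q C p A → P w e m N B E C p

/-- **CRG**: the cover exists -/
def CRG : Prop := ∀ (w e m N : ℕ) (B : Bs w) (E : Et (B.pow (m * N)) e m) (Q : Set B.W.X), B.Ok →
  E.Geo → Sb E Q → ∃ C p A, Cr E Q C p A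

/-- **TRF**: the measures on the fibres -/
def TRF : Prop := ForV fun _ _ m _ B E C p => ∀ i, ∀ y ∈ B.l.U i, y ∉ C.Q →
  (∀ f : C.X.X → ℝ≥0∞, Measurable f →
    AEMeasurable (fun x => ∑' x' : p ⁻¹' {x}, f x') (E.ν i y) ∧
    ∫⁻ x, f x ∂C.ν i y = ∫⁻ x, ∑' x' : p ⁻¹' {x}, f x' ∂E.ν i y) ∧
  ∀ ε : ℝ, 0 ≤ ε → C.J i ε y = m * E.J i ε y

/-- **MEAN** -/
def MEAN : Prop := ForV fun w e _ _ B E C _ => E.Ok →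
  (∀ i, ∀ y ∈ B.l.U i, y ∉ C.Q → ∀ φ, (∀ x ∈ off C.G, C.g x = y → FH C.g φ x) →
    C.L2 i y φ → ∃ c, C.Mean i y φ c) ∧
  ∀ i O, IsOpen O → O ⊆ B.l.U i \ C.Q → ∀ φ,
    (∀ x ∈ off C.G, C.g x ∈ O → Hol (w + e) φ x) → (∀ y ∈ O, C.L2 i y φ) →
    ∃ c : B.W.X → ℂ, ∀ y ∈ O, Hol w c y ∧ C.Mean i y φ (c y)

end Vale.Agent.P281Z.Cv
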