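import Vale.Agent.P281Z.Cv.Defs

/-!
# P281Z, the cover of the fibre power: assembly
-/

open scoped ENNReal
open Set
open Vale.Agent.P281Z.Pk

noncomputable section

namespace Vale.Agent.P281Z.Cv

variable {w e m : ℕ} {B : Bs w}

/-- the first power -/
def one (E : Et B e m) : Et (B.pow 1) e m := ⟨E.X, E.g, E.κ, E.G, E.t, E.Q₀, E.Q, E.ρ⟩

theorem one_ok {E : Et B e m} (h : E.Ok) : (one E).Ok :=
  ⟨⟨h.pos, ⟨h.base.conn, h.base.kah, lb_pow h.base.lb 1, h.base.ch⟩, h.kah, h.hol, h.snc, h.thin₀,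
    h.thin, h.sub, h.reg, h.onto, h.thol, h.tchg, fun i j c x a b d =>
      (h.lchg i j c x a b d).trans (congrArg (· * _ * _) (pow_one _).symm), h.den, h.ne, h.cont,
    h.cpb⟩, h.fi, h.un⟩

theorem one_sb {E : Et B e m} (h : E.Ok) : Sb (one E) E.Q :=
  ⟨h.thin, h.sub, Subset.rfl, fun _ _ k => (h.reg _ k).sbm h.hol h.snc rfl⟩

theorem pow_of (h1 : PRG) (h2 : PRM) (h3 : PRU) {E : Et B e m} (h : E.Ok) (s : ℕ) :
    ∀ d, d = (s + 1) * e → ∃ E' : Et (B.pow (s + 1)) d m, E'.Ok ∧ Sb E' E.Q ∧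
      ∀ i, ∀ y ∈ B.l.U i, y ∉ E'.Q → ∀ ε : ℝ, 0 ≤ ε → E'.J i ε y = E.J i ε y ^ (s + 1) := by
  induction s with
  | zero =>
    intro d k
    rw [k, zero_add, one_mul]
    exact ⟨one E, one_ok h, one_sb h, fun i y _ _ ε _ => (pow_one _).symm⟩
  | succ s ih =>
    intro d k
    rw [k, add_one_mul]
    obtain ⟨E₁, a, b, c⟩ := ih _ rfl
    obtain ⟨E', p₁, p₂, r⟩ := h1 w _ e m _ 1 B E₁ (one E) E.Q h.base a.toGeo (one_ok h).toGeo b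
      (one_sb h)
    have k := h2 _ _ _ _ _ _ _ _ _ _ _ _ _ r
    refine ⟨E', ⟨r.geo, fun i y hy hQ ε hε => ?_, h3 _ _ _ _ _ _ _ _ _ _ _ _ _ r a (one_ok h)⟩, r.sb,
      fun i y hy hQ ε hε => ?_⟩
    · rw [(k i y hy hQ).2 ε hε.le]
      exact ENNReal.mul_lt_top (a.fi i y hy (mt (r.s₁ ·) hQ) ε hε) (h.fi i y hy (mt (r.s₂ ·) hQ) ε hε)
    · rw [(k i y hy hQ).2 ε hε, c i y hy (mt (r.s₁ ·) hQ) ε hε, pow_succ _ (s + 1)]
      rfl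

theorem cov_of (h1 : PRG) (h2 : PRM) (h3 : PRU) (h4 : CRG) (h5 : TRF) (h6 : MEAN) (h7 : CPB) :
    COV := fun w e m B E h N hN => by
  obtain ⟨s, hs⟩ := Nat.exists_eq_add_one_of_ne_zero (Nat.mul_pos h.pos hN).ne'
  have k := pow_of h1 h2 h3 h s
  rw [← hs] at k
  obtain ⟨E', a, b, c⟩ := k _ rfl
  obtain ⟨C, p, A, r⟩ := h4 w _ m N B E' E.Q h.base a.toGeo b
  have k1 := h5 _ _ _ _ _ _ _ _ _ _ r
  have k2 := h6 _ _ _ _ _ _ _ _ _ _ r a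
  refine ⟨C, ⟨r.geo, fun i y hy hQ ε hε => ?_, fun x hx => ?_, r.conn, r.nz, r.ord,
    (h7 _ C.X _ C.G r.geo.snc).2.2 _ r.conn r.geo.cpb, k2.1, k2.2⟩, r.q₀, fun i y hy hQ ε hε => ?_⟩
  · rw [(k1 i y hy hQ).2 ε hε.le]
    exact ENNReal.mul_lt_top (ENNReal.natCast_lt_top m) (a.fi i y hy (mt (r.sub ·) hQ) ε hε)
  · obtain ⟨i, hi⟩ := h.base.lb.cover (E'.g (p x))
    rw [r.q₀, ← r.g]
    exact ((r.bad i _ hi).1 ((r.mem x).1 hx)).1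
  · rw [(k1 i y hy hQ).2 ε hε, c i y hy (mt (r.sub ·) hQ) ε hε]

end Vale.Agent.P281Z.Cv
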