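import Vale.Agent.P281Z.Cv.Prx

/-!
# P281Z, the cover of the fibre power: the forms on a fibre product
-/

open scoped Manifold ContDiff Topology
open Set Filter
open Vale.Agent.P272.K Vale.Agent.P285.H281.FD
open Vale.Agent.P277Z (Hol jd hol_const at_chart)
open Vale.Agent.P277Z.Slc (LEq Snc)
open Vale.Agent.P281Z.Pk

noncomputable section

namespace Vale.Agent.P281Z.Cv

namespace Pg

variable {w e e₁ e₂ m a b : ℕ} {B : Bs w}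

section one

variable {E : Et B e m} {Q : Set B.W.X} {x : E.X.X}

variable (E Q) in
/-- the good open set -/
def Og : Set E.X.X := {x | E.g x ∉ Q ∧ x ∈ off E.G}

theorem an_Og (hE : E.Geo) (hs : Sb E Q) : An (w + e) (Og E Q)ᶜ := by
  have : (Og E Q)ᶜ = E.g ⁻¹' Q ∪ (off E.G)ᶜ := by
    ext x
    simp only [Og, mem_compl_iff, mem_ofPred_eq, mem_union, mem_preimage]
    tauto
  exact this ▸ (hs.thin.1.pre hE.hol).union (snc_thin_off hE.snc).1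

theorem memO (hs : Sb E Q) (hx : x ∈ Og E Q) {i} (hi : E.g x ∈ B.l.U i) : x ∈ E.O i :=
  ⟨⟨hi, fun a => hx.1 (hs.sub₀ a)⟩, hx.2⟩

theorem pick (h2 : J2) (hE : E.Geo) (hs : Sb E Q) (hx : x ∈ Og E Q) {χ c} (hχ : At χ (E.g x))
    (hc : At c x) : ∃ I : Fin e → Fin (w + e), jf χ E.g (fun a y => c y (I a)) c x ≠ 0 :=
  (h2 w e E.X B.W χ E.g (fun _ _ => 0) c x hE.hol hχ hc fun _ => hol_const _ _).2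
    (hs.sbm x hx.2 hx.1)

theorem pick' (h2 : J2) (hE : E.Geo) (hs : Sb E Q) (hx : x ∈ Og E Q) {χ c} (hχ : At χ (E.g x))
    (hc : At c x) : ∃ u, (∀ a, Hol (w + e) (u a) x) ∧ jf χ E.g u c x ≠ 0 :=
  let ⟨_, h⟩ := pick h2 hE hs hx hχ hc
  ⟨_, fun _ => hol_chart hc _, h⟩

end one

theorem hol_ap {n n₁ n₂ : ℕ} {X : Mf n} {X₁ : Mf n₁} {X₂ : Mf n₂} {p₁ : X.X → X₁.X}
    {p₂ : X.X → X₂.X} {v₁ : Fin e₁ → X₁.X → ℂ} {v₂ : Fin e₂ → X₂.X → ℂ} {x : X.X}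
    (h₁ : HolM n n₁ p₁) (h₂ : HolM n n₂ p₂) (k₁ : ∀ a, Hol n₁ (v₁ a) (p₁ x))
    (k₂ : ∀ a, Hol n₂ (v₂ a) (p₂ x)) (a : Fin (e₁ + e₂)) : Hol n (ap p₁ p₂ v₁ v₂ a) x := by
  refine Fin.addCases (fun a => ?_) (fun a => ?_) a
  · rw [ap, Fin.append_left]
    exact h₁.hol (k₁ a)
  · rw [ap, Fin.append_right]
    exact h₂.hol (k₂ a)

variable {E₁ : Et (B.pow a) e₁ m} {E₂ : Et (B.pow b) e₂ m} {Q : Set B.W.X}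

variable (E₁ E₂ Q) in
/-- the hypotheses -/
structure Hy : Prop where
  j1 : J1
  j2 : J2
  j3 : J3
  j4 : J4
  ok : B.Ok
  g₁ : E₁.Geo
  g₂ : E₂.Geo
  s₁ : Sb E₁ Q
  s₂ : Sb E₂ Q

variable (P : Px E₁.g E₂.g (Og E₁ Q) (Og E₂ Q))

/-- the map to the base -/
abbrev gg (x : P.X.X) : B.W.X := E₁.g (P.p₁ x)

/-- the property which defines the forms -/
def Key (t : B.l.ι → Chart (w + (e₁ + e₂)) P.X.X → P.X.X → ℂ) : Prop :=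
  ∀ i, ∀ x ∈ off P.G, gg P x ∈ B.l.U i → ∀ c c₁ c₂, At c x → At c₁ (P.p₁ x) → At c₂ (P.p₂ x) →
    ∀ v₁ v₂, (∀ a, Hol (w + e₁) (v₁ a) (P.p₁ x)) → (∀ a, Hol (w + e₂) (v₂ a) (P.p₂ x)) →
    t i c x * (jf (B.ch i) E₁.g v₁ c₁ (P.p₁ x) * jf (B.ch i) E₂.g v₂ c₂ (P.p₂ x)) ^ m =
      E₁.t i c₁ (P.p₁ x) * E₂.t i c₂ (P.p₂ x) *
        jf (B.ch i) (gg P) (ap P.p₁ P.p₂ v₁ v₂) c x ^ m

variable {P} (H : Hy E₁ E₂ Q) {x : P.X.X}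
include H

theorem Hy.hol : HolM (w + (e₁ + e₂)) w (gg P) := H.g₁.hol.comp P.h₁

theorem Hy.m₁ (hx : x ∈ off P.G) {i} (hi : gg P x ∈ B.l.U i) : P.p₁ x ∈ E₁.O i :=
  memO H.s₁ ((P.mem x).1 hx).1 hi

theorem Hy.m₂ (hx : x ∈ off P.G) {i} (hi : gg P x ∈ B.l.U i) : P.p₂ x ∈ E₂.O i :=
  memO H.s₂ ((P.mem x).1 hx).2 (by rwa [P.g])

theorem Hy.loc (hx : x ∈ off P.G) {χ c₁ c₂} (hχ : At χ (gg P x)) (h₁ : At c₁ (P.p₁ x))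
    (h₂ : At c₂ (P.p₂ x)) : ∃ v₁ v₂, (∀ a, Hol (w + e₁) (v₁ a) (P.p₁ x)) ∧
      (∀ a, Hol (w + e₂) (v₂ a) (P.p₂ x)) ∧ jf χ E₁.g v₁ c₁ (P.p₁ x) ≠ 0 ∧
      jf χ E₂.g v₂ c₂ (P.p₂ x) ≠ 0 :=
  let ⟨v₁, a₁, b₁⟩ := pick' H.j2 H.g₁ H.s₁ ((P.mem x).1 hx).1 hχ h₁
  let ⟨v₂, a₂, b₂⟩ := pick' H.j2 H.g₂ H.s₂ ((P.mem x).1 hx).2 (by rwa [P.g]) h₂
  ⟨v₁, v₂, a₁, a₂, b₁, b₂⟩

theorem Hy.ap_ne (hx : x ∈ off P.G) {χ c c₁ c₂ v₁ v₂} (hχ : At χ (gg P x)) (h : At c x)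
    (h₁ : At c₁ (P.p₁ x)) (h₂ : At c₂ (P.p₂ x)) (a₁ : ∀ a, Hol (w + e₁) (v₁ a) (P.p₁ x))
    (a₂ : ∀ a, Hol (w + e₂) (v₂ a) (P.p₂ x)) (b₁ : jf χ E₁.g v₁ c₁ (P.p₁ x) ≠ 0)
    (b₂ : jf χ E₂.g v₂ c₂ (P.p₂ x) ≠ 0) : jf χ (gg P) (ap P.p₁ P.p₂ v₁ v₂) c x ≠ 0 :=
  (H.j4 _ _ _ _ _ _ _ χ (gg P) _ _ _ _ c c₁ c₂ v₁ v₂ x H.g₁.hol H.g₂.hol P.h₁ P.h₂ (fun _ => rfl)
    P.g hχ h h₁ h₂ a₁ a₂ b₁ b₂).1 (P.imm x hx c c₁ c₂ h h₁ h₂)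

variable (P) in
theorem Hy.exists_t : ∃ t, Key P t := by
  have k : ∀ i (x : P.X.X), ∃ v₁ v₂, x ∈ off P.G → gg P x ∈ B.l.U i →
      (∀ a, Hol (w + e₁) (v₁ a) (P.p₁ x)) ∧ (∀ a, Hol (w + e₂) (v₂ a) (P.p₂ x)) ∧
      jf (B.ch i) E₁.g v₁ (chartAt _ (P.p₁ x)) (P.p₁ x) ≠ 0 ∧
      jf (B.ch i) E₂.g v₂ (chartAt _ (P.p₂ x)) (P.p₂ x) ≠ 0 := fun i x => by
    by_cases h : x ∈ off P.G ∧ gg P x ∈ B.l.U i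
    · obtain ⟨v₁, v₂, k⟩ := H.loc h.1 (H.ok.ch i _ h.2) (at_chart _) (at_chart _)
      exact ⟨v₁, v₂, fun _ _ => k⟩
    · exact ⟨0, 0, fun a b => absurd ⟨a, b⟩ h⟩
  choose u₁ u₂ k using k
  refine ⟨fun i c x => E₁.t i (chartAt _ (P.p₁ x)) (P.p₁ x) * E₂.t i (chartAt _ (P.p₂ x)) (P.p₂ x) *
    (jf (B.ch i) (gg P) (ap P.p₁ P.p₂ (u₁ i x) (u₂ i x)) c x /
      (jf (B.ch i) E₁.g (u₁ i x) (chartAt _ (P.p₁ x)) (P.p₁ x) *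
        jf (B.ch i) E₂.g (u₂ i x) (chartAt _ (P.p₂ x)) (P.p₂ x))) ^ m,
    fun i x hx hi c c₁ c₂ h h₁ h₂ v₁ v₂ a₁ a₂ => ?_⟩
  obtain ⟨k1, k2, k3, k4⟩ := k i x hx hi
  have hχ := H.ok.ch i _ hi
  have e := (H.j4 _ _ _ _ _ _ _ (B.ch i) (gg P) _ _ _ _ c _ _ _ _ x H.g₁.hol H.g₂.hol P.h₁ P.h₂
    (fun _ => rfl) P.g hχ h (at_chart _) (at_chart _) k1 k2 k3 k4).2 v₁ v₂ a₁ a₂
  rw [(H.j1 _ _ _ _ _ _ v₁ c₁ _ H.g₁.hol hχ h₁ a₁).2.1 _ (at_chart _),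
    (H.j1 _ _ _ _ _ _ v₂ c₂ _ H.g₂.hol (by rwa [P.g]) h₂ a₂).2.1 _ (at_chart _),
    H.g₁.tchg i c₁ _ _ (H.m₁ hx hi) h₁ (at_chart _), H.g₂.tchg i c₂ _ _ (H.m₂ hx hi) h₂ (at_chart _),
    eq_div_of_mul_eq (mul_ne_zero k3 k4) e]
  simp only [div_eq_mul_inv, mul_pow]
  ring

variable {t : B.l.ι → Chart (w + (e₁ + e₂)) P.X.X → P.X.X → ℂ} (K : Key P t)
include K

theorem Hy.thol (hx : x ∈ off P.G) {i c} (hi : gg P x ∈ B.l.U i) (h : At c x) :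
    Hol (w + (e₁ + e₂)) (t i c) x := by
  have hχ := H.ok.ch i _ hi
  obtain ⟨v₁, v₂, a₁, a₂, b₁, b₂⟩ := H.loc hx hχ (at_chart _) (at_chart _)
  have c₁ := P.h₁.hol (H.j1 _ _ _ _ _ _ v₁ _ _ H.g₁.hol hχ (at_chart _) a₁).1
  have c₂ := P.h₂.hol (H.j1 _ _ _ _ (B.ch i) _ v₂ _ _ H.g₂.hol (by rwa [P.g]) (at_chart _) a₂).1
  have c₃ := (c₁.mul c₂).pow m
  have c₄ := pow_ne_zero m (mul_ne_zero b₁ b₂)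
  refine ((((P.h₁.hol (H.g₁.thol i _ _ (H.m₁ hx hi) (at_chart _))).mul
    (P.h₂.hol (H.g₂.thol i _ _ (H.m₂ hx hi) (at_chart _)))).mul
    ((H.j1 _ _ _ _ _ _ _ c x H.hol hχ h (hol_ap P.h₁ P.h₂ a₁ a₂)).1.pow m)).div c₃ c₄).congr ?_
  filter_upwards [(snc_open_off P.snc).mem_nhds hx,
    H.hol.cont.continuousAt.eventually (lb_near H.ok.lb hi), at_near h,
    P.h₁.cont.continuousAt.eventually ((at_near (at_chart (n := w + e₁) _)).and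
      (eventually_all.2 fun a => (a₁ a).near)),
    P.h₂.cont.continuousAt.eventually ((at_near (at_chart (n := w + e₂) _)).and
      (eventually_all.2 fun a => (a₂ a).near)), c₃.cont.eventually_ne c₄] with y d1 d2 d3 d4 d5 d6
  exact (eq_div_of_mul_eq d6 (K i y d1 d2 c _ _ d3 d4.1 d5.1 v₁ v₂ d4.2 d5.2)).symm

theorem Hy.tchg (hx : x ∈ off P.G) {i c c'} (hi : gg P x ∈ B.l.U i) (h : At c x) (h' : At c' x) :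
    t i c x = (jacM c c' x).det ^ m * t i c' x := by
  have hχ := H.ok.ch i _ hi
  obtain ⟨v₁, v₂, a₁, a₂, b₁, b₂⟩ := H.loc hx hχ (at_chart _) (at_chart _)
  refine mul_right_cancel₀ (pow_ne_zero m (mul_ne_zero b₁ b₂)) ?_
  rw [mul_assoc, K i x hx hi c _ _ h (at_chart _) (at_chart _) v₁ v₂ a₁ a₂,
    K i x hx hi c' _ _ h' (at_chart _) (at_chart _) v₁ v₂ a₁ a₂,
    (H.j1 _ _ _ _ _ _ _ c x H.hol hχ h (hol_ap P.h₁ P.h₂ a₁ a₂)).2.1 c' h']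
  ring

theorem Hy.lchg (hx : x ∈ off P.G) {i j c} (hi : gg P x ∈ B.l.U i) (hj : gg P x ∈ B.l.U j)
    (h : At c x) : t j c x = B.l.g i j (gg P x) ^ (a + b) *
      (jacM (B.ch i) (B.ch j) (gg P x)).det ^ m * t i c x := by
  have hχ := H.ok.ch i _ hi
  have hχ' := H.ok.ch j _ hj
  obtain ⟨v₁, v₂, a₁, a₂, b₁, b₂⟩ := H.loc hx hχ' (at_chart _) (at_chart _)
  refine mul_right_cancel₀ (pow_ne_zero m (mul_ne_zero b₁ b₂)) ?_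
  have e := K i x hx hi c _ _ h (at_chart _) (at_chart _) v₁ v₂ a₁ a₂
  have e₂ := H.g₂.lchg i j _ _ (H.m₂ hx hi) (H.m₂ hx hj) (at_chart _)
  have e₃ := (H.j1 _ _ _ _ (B.ch i) _ v₂ _ _ H.g₂.hol (by rwa [P.g]) (at_chart _) a₂).2.2.1
    (B.ch j) (by rwa [P.g])
  rw [P.g] at e₂ e₃
  rw [K j x hx hj c _ _ h (at_chart _) (at_chart _) v₁ v₂ a₁ a₂,
    (H.j1 _ _ _ _ _ _ _ c x H.hol hχ h (hol_ap P.h₁ P.h₂ a₁ a₂)).2.2.1 _ hχ',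
    (H.j1 _ _ _ _ _ _ v₁ _ _ H.g₁.hol hχ (at_chart _) a₁).2.2.1 _ hχ', e₃, e₂,
    H.g₁.lchg i j _ _ (H.m₁ hx hi) (H.m₁ hx hj) (at_chart _)]
  simp only [Bd.pow, mul_pow] at e ⊢
  linear_combination -(B.l.g i j (gg P x) ^ (a + b) *
    (jacM (B.ch i) (B.ch j) (gg P x)).det ^ (3 * m)) * e

theorem Hy.den {i c} (hi : gg P x ∈ B.l.U i) (h : At c x) :
    ∃ (k : ℕ) (a u : Fin k → P.X.X → ℂ), (∀ j, Hol (w + (e₁ + e₂)) (a j) x ∧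
      Hol (w + (e₁ + e₂)) (u j) x) ∧ ∀ᶠ x' in 𝓝 x, x' ∈ off P.G →
      (∃ j, a j x' ≠ 0) ∧ ∀ j, a j x' * t i c x' = u j x' := by
  have hχ := H.ok.ch i _ hi
  have h₁ := at_chart (n := w + e₁) (P.p₁ x)
  have h₂ := at_chart (n := w + e₂) (P.p₂ x)
  generalize chartAt (Cm (w + e₁)) (P.p₁ x) = c₁ at h₁
  generalize chartAt (Cm (w + e₂)) (P.p₂ x) = c₂ at h₂
  obtain ⟨k₁, a₁, u₁, b₁, d₁⟩ := H.g₁.den i c₁ _ hi h₁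
  obtain ⟨k₂, a₂, u₂, b₂, d₂⟩ := H.g₂.den i c₂ (P.p₂ x) (by rwa [P.g]) h₂
  let σ := (Fintype.equivFin ((Fin k₁ × Fin k₂) ×
    (Fin e₁ → Fin (w + e₁)) × (Fin e₂ → Fin (w + e₂)))).symm
  refine ⟨_, fun j y => a₁ (σ j).1.1 (P.p₁ y) * a₂ (σ j).1.2 (P.p₂ y) *
    (jf (B.ch i) E₁.g (fun a z => c₁ z ((σ j).2.1 a)) c₁ (P.p₁ y) *
      jf (B.ch i) E₂.g (fun a z => c₂ z ((σ j).2.2 a)) c₂ (P.p₂ y)) ^ m,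
    fun j y => u₁ (σ j).1.1 (P.p₁ y) * u₂ (σ j).1.2 (P.p₂ y) * jf (B.ch i) (gg P)
      (ap P.p₁ P.p₂ (fun a z => c₁ z ((σ j).2.1 a)) fun a z => c₂ z ((σ j).2.2 a)) c y ^ m,
    fun j => ⟨((P.h₁.hol (b₁ _).1).mul (P.h₂.hol (b₂ _).1)).mul (((P.h₁.hol
      (H.j1 _ _ _ _ _ _ _ _ _ H.g₁.hol hχ h₁ fun _ => hol_chart h₁ _).1).mul (P.h₂.hol
      (H.j1 _ _ _ _ _ _ _ _ _ H.g₂.hol (by rwa [P.g]) h₂ fun _ => hol_chart h₂ _).1)).pow m),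
      ((P.h₁.hol (b₁ _).2).mul (P.h₂.hol (b₂ _).2)).mul ((H.j1 _ _ _ _ _ _ _ _ _ H.hol hχ h
        (hol_ap P.h₁ P.h₂ (fun _ => hol_chart h₁ _) fun _ => hol_chart h₂ _)).1.pow m)⟩, ?_⟩
  filter_upwards [H.hol.cont.continuousAt.eventually (lb_near H.ok.lb hi), at_near h,
    P.h₁.cont.continuousAt.eventually ((at_near h₁).and d₁),
    P.h₂.cont.continuousAt.eventually ((at_near h₂).and d₂)] with y f1 f2 f3 f4 hy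
  obtain ⟨⟨j₁, g1⟩, g2⟩ := f3.2 (H.m₁ hy f1)
  obtain ⟨⟨j₂, g3⟩, g4⟩ := f4.2 (H.m₂ hy f1)
  obtain ⟨I₁, g5⟩ := pick H.j2 H.g₁ H.s₁ ((P.mem y).1 hy).1 (H.ok.ch i _ f1) f3.1
  obtain ⟨I₂, g6⟩ := pick (χ := B.ch i) H.j2 H.g₂ H.s₂ ((P.mem y).1 hy).2
    (by rw [P.g]; exact H.ok.ch i _ f1) f4.1
  refine ⟨⟨σ.symm ((j₁, j₂), I₁, I₂), ?_⟩, fun j => ?_⟩
  · rw [σ.apply_symm_apply]
    exact mul_ne_zero (mul_ne_zero g1 g3) (pow_ne_zero m (mul_ne_zero g5 g6))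
  · rw [← g2, ← g4]
    linear_combination a₁ (σ j).1.1 (P.p₁ y) * a₂ (σ j).1.2 (P.p₂ y) *
      K i y hy f1 c c₁ c₂ f2 f3.1 f4.1 _ _ (fun a => hol_chart f3.1 ((σ j).2.1 a))
        fun a => hol_chart f4.1 ((σ j).2.2 a)

theorem Hy.ne (hx : x ∈ off P.G) {i c} (hi : gg P x ∈ B.l.U i) (q₁ : gg P x ∉ E₁.Q)
    (q₂ : gg P x ∉ E₂.Q) (h : At c x) :
    ∃ᶠ x' in 𝓝 x, gg P x' = gg P x ∧ x' ∈ off P.G ∧ t i c x' ≠ 0 := by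
  intro k
  obtain ⟨pa, a₁, pb, a₂, k1⟩ := eventually_prod_iff.1 (P.ev x hx _ (k.and (at_near h)))
  obtain ⟨x₁, ⟨b1, b2, b3⟩, b4, b5⟩ := ((H.g₁.ne i _ _ hi q₁ (at_chart _)).and_eventually
    (a₁.and (at_near (at_chart (n := w + e₁) _)))).exists
  obtain ⟨x₂, ⟨c1, c2, c3⟩, c4, c5⟩ := ((H.g₂.ne i _ (P.p₂ x) (by rwa [P.g]) (by rwa [P.g])
    (at_chart _)).and_eventually (a₂.and (at_near (at_chart (n := w + e₂) _)))).exists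
  have hq := ((P.mem x).1 hx).1.1
  have o₁ : x₁ ∈ Og E₁ Q := ⟨by rwa [b1], b2.2⟩
  have o₂ : x₂ ∈ Og E₂ Q := ⟨by rwa [c1, P.g], c2.2⟩
  obtain ⟨y, rfl, rfl⟩ := (P.one x₁ o₁ x₂ o₂ (by rw [b1, c1, P.g])).exists
  obtain ⟨d1, d2⟩ := k1 b4 c4 y rfl rfl
  have hy := (P.mem y).2 ⟨o₁, o₂⟩
  have hχ := H.ok.ch i _ b2.1.1
  obtain ⟨v₁, v₂, e1, e2, e3, e4⟩ := H.loc hy hχ b5 c5
  refine d1 ⟨b1, hy, fun e => mul_ne_zero (mul_ne_zero b3 c3)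
    (pow_ne_zero m (H.ap_ne hy hχ d2 b5 c5 e1 e2 e3 e4)) ?_⟩
  rw [← K i y hy b2.1.1 c _ _ d2 b5 c5 v₁ v₂ e1 e2, e, zero_mul]

end Pg

end Vale.Agent.P281Z.Cv
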