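import Vale.Agent.P281Z.Cv.Defs
import Vale.Agent.P281Z.Mf.Prod
import Vale.Agent.P281Z.Mf.Mod
import Vale.Agent.P281Z.Rs.Clo

/-!
# P281Z, the cover of the fibre power: a model of a fibre product
-/

open scoped Manifold ContDiff Topology
open Set Filter
open Vale.Agent.P272.K Vale.Agent.P285.H281.FD
open Vale.Agent.P277Z (Hol jd)
open Vale.Agent.P277Z.Slc (LEq Snc)

noncomputable section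

namespace Vale.Agent.P281Z.Cv

variable {w e₁ e₂ : ℕ} {X₁ : Mf (w + e₁)} {X₂ : Mf (w + e₂)} {W : Mf w}

/-- a model of the fibre product of `g₁` and `g₂`; `O₁`, `O₂` are the good open sets -/
structure Px (g₁ : X₁.X → W.X) (g₂ : X₂.X → W.X) (O₁ : Set X₁.X) (O₂ : Set X₂.X) : Type 1 where
  X : Mf (w + (e₁ + e₂))
  p₁ : X.X → X₁.X
  p₂ : X.X → X₂.X
  r : ℕ
  G : Fin r → Set X.X
  snc : Snc (w + (e₁ + e₂)) G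
  kah : X₁.Kah → X₂.Kah → X.Kah
  h₁ : HolM (w + (e₁ + e₂)) (w + e₁) p₁
  h₂ : HolM (w + (e₁ + e₂)) (w + e₂) p₂
  g : ∀ x, g₂ (p₂ x) = g₁ (p₁ x)
  mem : ∀ x, x ∈ off G ↔ p₁ x ∈ O₁ ∧ p₂ x ∈ O₂
  one : ∀ x₁ ∈ O₁, ∀ x₂ ∈ O₂, g₁ x₁ = g₂ x₂ → ∃! x, p₁ x = x₁ ∧ p₂ x = x₂
  imm : ∀ x ∈ off G, ∀ (c : Chart (w + (e₁ + e₂)) X.X) (c₁ : Chart (w + e₁) X₁.X)
    (c₂ : Chart (w + e₂) X₂.X), At c x → At c₁ (p₁ x) → At c₂ (p₂ x) →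
    ∀ ξ, df p₁ c c₁ x ξ = 0 → df p₂ c c₂ x ξ = 0 → ξ = 0
  ev : ∀ x ∈ off G, ∀ P : X.X → Prop, (∀ᶠ y in 𝓝 x, P y) →
    ∀ᶠ z in 𝓝 (p₁ x) ×ˢ 𝓝 (p₂ x), ∀ y, p₁ y = z.1 → p₂ y = z.2 → P y

theorem exists_px (hR : Rs.RES) {g₁ : X₁.X → W.X} {g₂ : X₂.X → W.X} {O₁ : Set X₁.X}
    {O₂ : Set X₂.X} (h₁ : HolM (w + e₁) w g₁) (h₂ : HolM (w + e₂) w g₂) (a₁ : An (w + e₁) O₁ᶜ)
    (a₂ : An (w + e₂) O₂ᶜ) (hs : ∀ x ∈ O₁, Sbm (w + e₁) w g₁ x) : Nonempty (Px g₁ g₂ O₁ O₂) := by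
  have hZ : An (w + e₁ + (w + e₂)) (X₁.p1 X₂ ⁻¹' O₁ᶜ ∪ X₁.p2 X₂ ⁻¹' O₂ᶜ) :=
    (a₁.pre hol_p1).union (a₂.pre hol_p2)
  obtain ⟨I, hI, -⟩ := Rs.idl _ _ _ hZ
  obtain ⟨R⟩ := hR _ (w + (e₁ + e₂)) (X₁.prod X₂) (fp g₁ g₂) I (fp_an h₁ h₂) (by
    rw [hI]
    exact fp_subM (by omega) h₁ h₂ hZ.closed.isOpen_compl fun z hz =>
      .inl (hs _ (not_not.1 fun a => hz.2 (.inl a))))
  have ho := R.ovr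
  have hb : ∀ x, x ∈ off R.G ↔ R.π x ∉ I.Z := fun x => by
    rw [R.bad, not_exists]
    rfl
  have hz : ∀ z, z ∉ I.Z ↔ X₁.p1 X₂ z ∈ O₁ ∧ X₁.p2 X₂ z ∈ O₂ := fun z => by simp [hI]
  have k₁ := hol_p1.comp ho.hol
  have k₂ := hol_p2.comp ho.hol
  refine ⟨⟨R.V, fun v => X₁.p1 X₂ (R.π v), fun v => X₁.p2 X₂ (R.π v), R.r, R.G, R.snc,
    fun a b => R.kah (a.prod b), k₁, k₂, fun x => (ho.maps x).symm, fun x => (hb x).trans (hz _),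
    fun x₁ b₁ x₂ b₂ b => ?_, fun x hx c c₁ c₂ b b₁ b₂ =>
      (imm_pair (k₁.at x) (k₂.at x) b b₁ b₂).1 (ho.imm x ((hb x).1 hx)), fun x hx P hP => ?_⟩⟩
  · exact (existsUnique_congr fun v => ⟨fun k => ⟨congrArg (X₁.p1 X₂) k, congrArg (X₁.p2 X₂) k⟩,
      fun k => prod_ext k.1 k.2⟩).1 (ho.one (X₁.pair X₂ x₁ x₂) b ((hz _).2 ⟨b₁, b₂⟩))
  · rw [← nhds_prod_eq]
    exact (ho.ev ((hb x).1 hx) hP).mono fun z a y b c => a y (prod_ext b c)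

end Vale.Agent.P281Z.Cv
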